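import Vale.Agent.P042.PS463.Spec
set_option autoImplicit false

namespace Vale.Agent.P042.PS463

open Polynomial Finset

/-- partial summation -/
lemma abel_id (w G : ℕ → ℂ) (a b : ℕ) (hab : a ≤ b) :
    ∑ x ∈ Finset.Ico a b, w x * (G (x + 1) - G x) =
      w b * G b - w a * G a - ∑ x ∈ Finset.Ico a b, (w (x + 1) - w x) * G (x + 1) := by
  induction b, hab using Nat.le_induction with
  | base => simp
  | succ b hab ih =>
    rw [Finset.sum_Ico_succ_top hab, Finset.sum_Ico_succ_top hab, ih]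
    ring

lemma abel (w g : ℕ → ℂ) (a b : ℕ) (hab : a ≤ b) (T : ℝ)
    (hT : ∀ M ≤ b, ‖∑ x ∈ Finset.range M, g x‖ ≤ T) :
    ‖∑ x ∈ Finset.Ico a b, w x * g x‖ ≤
      T * (‖w a‖ + ‖w b‖ + ∑ x ∈ Finset.Ico a b, ‖w (x + 1) - w x‖) := by
  obtain ⟨G, hG⟩ : ∃ G : ℕ → ℂ, ∀ M, G M = ∑ x ∈ Finset.range M, g x := ⟨_, fun _ => rfl⟩
  have hT' : ∀ M ≤ b, ‖G M‖ ≤ T := fun M hM => by rw [hG]; exact hT M hM
  have h1 : ∑ x ∈ Finset.Ico a b, w x * g x = ∑ x ∈ Finset.Ico a b, w x * (G (x + 1) - G x) := by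
    apply Finset.sum_congr rfl
    intro x _
    rw [hG, hG, Finset.sum_range_succ]
    ring
  rw [h1, abel_id w G a b hab]
  have h2 : ‖∑ x ∈ Finset.Ico a b, (w (x + 1) - w x) * G (x + 1)‖ ≤
      T * ∑ x ∈ Finset.Ico a b, ‖w (x + 1) - w x‖ := by
    refine (norm_sum_le _ _).trans ?_
    rw [Finset.mul_sum]
    apply Finset.sum_le_sum
    intro x hx
    rw [norm_mul, mul_comm T]
    apply mul_le_mul_of_nonneg_left (hT' _ _) (norm_nonneg _)
    exact (Finset.mem_Ico.1 hx).2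
  calc _ ≤ ‖w b * G b‖ + ‖w a * G a‖ + ‖∑ x ∈ Finset.Ico a b, (w (x + 1) - w x) * G (x + 1)‖ := by
        refine (norm_sub_le _ _).trans ?_
        gcongr
        exact norm_sub_le _ _
    _ ≤ ‖w b‖ * T + ‖w a‖ * T + T * ∑ x ∈ Finset.Ico a b, ‖w (x + 1) - w x‖ := by
        rw [norm_mul, norm_mul]
        gcongr
        · exact hT' b le_rfl
        · exact hT' a hab
    _ = _ := by ring

/-- lower bound for polynomials -/
lemma poly_lower (P : ℝ[X]) (m : ℕ) (hm : P.natDegree ≤ m) (hc : 0 < P.coeff m) :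
    ∃ X0 : ℕ, 1 ≤ X0 ∧ ∀ x : ℕ, X0 ≤ x → P.coeff m / 2 * (x : ℝ) ^ m ≤ P.eval (x : ℝ) := by
  set S : ℝ := ∑ i ∈ Finset.range m, |P.coeff i| with hS
  have hS0 : 0 ≤ S := Finset.sum_nonneg fun i _ => abs_nonneg _
  obtain ⟨X0, hX0⟩ := exists_nat_ge (2 * S / P.coeff m)
  refine ⟨X0 + 1, by omega, fun x hx => ?_⟩
  have hx1 : (1 : ℝ) ≤ x := by
    have : 1 ≤ x := by omega
    exact_mod_cast this
  have hxX : (X0 : ℝ) ≤ x := by
    have : X0 ≤ x := by omega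
    exact_mod_cast this
  rw [eval_eq_sum_range' (Nat.lt_succ_of_le hm), Finset.sum_range_succ]
  have h1 : -(S * (x : ℝ) ^ (m - 1)) ≤ ∑ i ∈ Finset.range m, P.coeff i * (x : ℝ) ^ i := by
    have h2 : |∑ i ∈ Finset.range m, P.coeff i * (x : ℝ) ^ i| ≤ S * (x : ℝ) ^ (m - 1) := by
      refine (Finset.abs_sum_le_sum_abs _ _).trans ?_
      rw [hS, Finset.sum_mul]
      apply Finset.sum_le_sum
      intro i hi
      have hi' := Finset.mem_range.1 hi
      rw [abs_mul, abs_of_nonneg (pow_nonneg (by linarith : (0 : ℝ) ≤ x) i)]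
      apply mul_le_mul_of_nonneg_left _ (abs_nonneg _)
      exact pow_le_pow_right₀ hx1 (by omega)
    exact (abs_le.1 h2).1
  rcases Nat.eq_zero_or_pos m with h0 | hmpos
  · subst h0
    simp only [Finset.range_zero, Finset.sum_empty, pow_zero, mul_one, zero_add]
    linarith
  · have h3 : S * (x : ℝ) ^ (m - 1) ≤ P.coeff m / 2 * (x : ℝ) ^ m := by
      have h4 : (x : ℝ) ^ m = x * (x : ℝ) ^ (m - 1) := by
        rw [← pow_succ']
        congr 1
        omega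
      rw [h4, ← mul_assoc]
      apply mul_le_mul_of_nonneg_right _ (by positivity)
      have h5 : 2 * S / P.coeff m ≤ x := hX0.trans hxX
      rw [div_le_iff₀ hc] at h5
      linarith
    linarith

/-- upper bound for polynomials -/
lemma poly_upper (P : ℝ[X]) (m : ℕ) (hm : P.natDegree ≤ m) :
    ∃ K : ℕ, 1 ≤ K ∧ ∀ x : ℕ, 1 ≤ x → |P.eval (x : ℝ)| ≤ K * (x : ℝ) ^ m := by
  obtain ⟨K, hK⟩ := exists_nat_ge (∑ i ∈ Finset.range (m + 1), |P.coeff i|)
  refine ⟨K + 1, by omega, fun x hx => ?_⟩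
  have hx1 : (1 : ℝ) ≤ x := by exact_mod_cast hx
  rw [eval_eq_sum_range' (Nat.lt_succ_of_le hm)]
  refine (Finset.abs_sum_le_sum_abs _ _).trans ?_
  calc ∑ i ∈ Finset.range (m + 1), |P.coeff i * (x : ℝ) ^ i|
      ≤ ∑ i ∈ Finset.range (m + 1), |P.coeff i| * (x : ℝ) ^ m := by
        apply Finset.sum_le_sum
        intro i hi
        have hi' := Finset.mem_range.1 hi
        rw [abs_mul, abs_of_nonneg (pow_nonneg (by linarith : (0 : ℝ) ≤ x) i)]
        apply mul_le_mul_of_nonneg_left _ (abs_nonneg _)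
        exact pow_le_pow_right₀ hx1 (by omega)
    _ = (∑ i ∈ Finset.range (m + 1), |P.coeff i|) * (x : ℝ) ^ m := by rw [Finset.sum_mul]
    _ ≤ ((K + 1 : ℕ) : ℝ) * (x : ℝ) ^ m := by
        gcongr
        push_cast
        linarith

/-- value of `h` at a natural number, as a real number -/
noncomputable def hv (h : ℤ[X]) (x : ℕ) : ℝ := ((h.eval (x : ℤ) : ℤ) : ℝ)

lemma hv_eq (h : ℤ[X]) (x : ℕ) : hv h x = (h.map (Int.castRingHom ℝ)).eval (x : ℝ) := by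
  unfold hv
  rw [eval_map, eval₂_eq_sum_range, eval_eq_sum_range]
  push_cast
  rfl

/-- growth data of `h` -/
structure Gr (h : ℤ[X]) (X0 K : ℕ) : Prop where
  X0pos : 1 ≤ X0
  Kpos : 1 ≤ K
  pos : ∀ x, X0 ≤ x → (1 : ℝ) / 2 * (x : ℝ) ^ h.natDegree ≤ hv h x
  step : ∀ x, X0 ≤ x → 1 ≤ hv h (x + 1) - hv h x
  step2 : ∀ x, X0 ≤ x → hv h (x + 1) - hv h x ≤ hv h (x + 2) - hv h (x + 1)
  up : ∀ x, 1 ≤ x → hv h x ≤ K * (x : ℝ) ^ h.natDegree
  upstep : ∀ x, 1 ≤ x → hv h (x + 1) - hv h x ≤ K * (x : ℝ) ^ (h.natDegree - 1)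

theorem exists_gr (h : ℤ[X]) (hk : 2 ≤ h.natDegree) (hpos : 0 < h.leadingCoeff) :
    ∃ X0 K : ℕ, Gr h X0 K := by
  set g : ℝ[X] := h.map (Int.castRingHom ℝ) with hg
  obtain ⟨k, hk2⟩ : ∃ k, h.natDegree = k + 2 := ⟨h.natDegree - 2, by omega⟩
  have hgd : g.natDegree ≤ (k + 1) + 1 := by
    rw [hg]
    exact (natDegree_map_le).trans (by omega)
  have hgc : g.coeff (k + 1 + 1) = (h.leadingCoeff : ℝ) := by
    rw [hg, coeff_map, leadingCoeff, hk2]
    simp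
  have hl1 : (1 : ℝ) ≤ h.leadingCoeff := by exact_mod_cast hpos
  have hd1 : (dd 1 g).natDegree ≤ k + 1 := dd_natDegree 1 g (k + 1) hgd
  have hc1 : (dd 1 g).coeff (k + 1) = ((k + 1 : ℕ) + 1 : ℝ) * g.coeff (k + 1 + 1) := by
    have := dd_coeff_top 1 g (k + 1) hgd
    rw [this]
    push_cast
    ring
  have hd2 : (dd 1 (dd 1 g)).natDegree ≤ k := dd_natDegree 1 _ k hd1
  have hc2 : (dd 1 (dd 1 g)).coeff k = ((k : ℝ) + 1) * (dd 1 g).coeff (k + 1) := by
    have := dd_coeff_top 1 (dd 1 g) k hd1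
    rw [this]
    ring
  have hc1p : (2 : ℝ) ≤ (dd 1 g).coeff (k + 1) := by
    rw [hc1, hgc]
    push_cast
    have : (0 : ℝ) ≤ k := Nat.cast_nonneg k
    nlinarith
  have hc2p : 0 < (dd 1 (dd 1 g)).coeff k := by
    rw [hc2]
    positivity
  obtain ⟨A0, hA0, hA⟩ := poly_lower g (k + 1 + 1) hgd (by rw [hgc]; linarith)
  obtain ⟨A1, hA1, hA'⟩ := poly_lower (dd 1 g) (k + 1) hd1 (by linarith)
  obtain ⟨A2, hA2, hA''⟩ := poly_lower (dd 1 (dd 1 g)) k hd2 hc2p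
  obtain ⟨K0, hK0, hK⟩ := poly_upper g (k + 1 + 1) hgd
  obtain ⟨K1, hK1, hK'⟩ := poly_upper (dd 1 g) (k + 1) hd1
  have e1 : ∀ x : ℕ, (dd 1 g).eval (x : ℝ) = hv h (x + 1) - hv h x := by
    intro x
    rw [dd_eval, hv_eq, hv_eq, ← hg]
    push_cast
    ring
  have e2 : ∀ x : ℕ, (dd 1 (dd 1 g)).eval (x : ℝ) =
      (hv h (x + 2) - hv h (x + 1)) - (hv h (x + 1) - hv h x) := by
    intro x
    have h3 := dd_eval 1 (dd 1 g) (x : ℝ)
    have h4 : ((x : ℝ) + 1) = ((x + 1 : ℕ) : ℝ) := by push_cast; ring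
    rw [h4, e1, e1] at h3
    exact h3
  refine ⟨A0 + A1 + A2, K0 + K1, ⟨by omega, by omega, ?_, ?_, ?_, ?_, ?_⟩⟩
  · intro x hx
    have := hA x (by omega)
    rw [hgc, hg, ← hv_eq] at this
    refine le_trans ?_ this
    rw [hk2]
    gcongr
  · intro x hx
    have := hA' x (by omega)
    rw [e1] at this
    refine le_trans ?_ this
    have hx1 : (1 : ℝ) ≤ x := by
      have : 1 ≤ x := by omega
      exact_mod_cast this
    have h5 : (1 : ℝ) ≤ (x : ℝ) ^ (k + 1) := one_le_pow₀ hx1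
    nlinarith
  · intro x hx
    have := hA'' x (by omega)
    rw [e2] at this
    have h6 : 0 ≤ (dd 1 (dd 1 g)).coeff k / 2 * (x : ℝ) ^ k := by positivity
    linarith
  · intro x hx
    have := hK x hx
    rw [hg, ← hv_eq] at this
    refine (le_abs_self _).trans (this.trans ?_)
    rw [hk2]
    have : (0 : ℝ) ≤ K1 := Nat.cast_nonneg _
    gcongr
    push_cast
    linarith
  · intro x hx
    have := hK' x hx
    rw [e1] at this
    refine (le_abs_self _).trans (this.trans ?_)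
    rw [hk2]
    have : (0 : ℝ) ≤ K0 := Nat.cast_nonneg _
    have h7 : k + 2 - 1 = k + 1 := by omega
    rw [h7]
    gcongr
    push_cast
    linarith

end Vale.Agent.P042.PS463
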