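import Vale.Agent.P042.PS463.Spec
set_option autoImplicit false

namespace Vale.Agent.P042.PS463

open Polynomial MeasureTheory intervalIntegral Pointwise

lemma re_e (x : ℝ) : (e x).re = Real.cos (2 * Real.pi * x) := by
  unfold e
  rw [Complex.exp_ofReal_mul_I_re]

lemma re_e_ge (x : ℝ) (hx : |x| ≤ 1 / 8) : 1 / 2 ≤ (e x).re := by
  rw [re_e]
  have h1 := Real.one_sub_sq_div_two_le_cos (x := 2 * Real.pi * x)
  have h2 : (2 * Real.pi * x) ^ 2 ≤ 1 := by
    have h3 : |2 * Real.pi * x| ≤ 1 := by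
      rw [abs_mul, abs_of_pos (by positivity)]
      have := Real.pi_lt_four
      have := Real.pi_pos
      nlinarith [abs_nonneg x]
    rw [← sq_abs]
    nlinarith [abs_nonneg (2 * Real.pi * x)]
  linarith

/-- the count of representations vanishes -/
lemma corr_zero (h : ℤ[X]) (A : Finset ℤ) (hA : DiffFree h A) (x : ℕ) (hx : 1 ≤ x)
    (h0 : h.eval (x : ℤ) ≠ 0) :
    (∑ a ∈ A, ∑ b ∈ A, if a = b + h.eval (x : ℤ) then
      (1 : ℂ) * (starRingEnd ℂ) (1 : ℂ) else 0) = 0 := by
  apply Finset.sum_eq_zero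
  intro a ha
  apply Finset.sum_eq_zero
  intro b hb
  rw [if_neg]
  intro hab
  apply h0
  have hmem : h.eval (x : ℤ) ∈ ((A : Set ℤ) - (A : Set ℤ)) ∩
      {m : ℤ | ∃ n : ℕ, 1 ≤ n ∧ h.eval (n : ℤ) = m} := by
    refine ⟨?_, x, hx, rfl⟩
    rw [Set.mem_sub]
    exact ⟨a, by exact_mod_cast ha, b, by exact_mod_cast hb, by omega⟩
  have := hA hmem
  simpa using this

/-- Delsarte / van der Corput bound. -/
theorem lp_bound (h : ℤ[X]) (N : ℕ) (hN : 1 ≤ N) (S : Finset ℕ) (w : ℕ → ℝ) (δ : ℝ)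
    (hS : ∀ x ∈ S, 1 ≤ x ∧ h.eval (x : ℤ) ≠ 0)
    (h1 : ∀ θ : ℝ, -δ ≤ (∑ x ∈ S, (w x : ℂ) * e (((h.eval (x : ℤ) : ℤ) : ℝ) * θ)).re)
    (h2 : ∀ θ : ℝ, |θ| ≤ 1 / (8 * N) →
      1 / 4 ≤ (∑ x ∈ S, (w x : ℂ) * e (((h.eval (x : ℤ) : ℤ) : ℝ) * θ)).re) :
    (rMax h N : ℝ) ≤ 128 * δ * N := by
  classical
  set f : ℝ → ℂ := fun θ => ∑ x ∈ S, (w x : ℂ) * e (((h.eval (x : ℤ) : ℤ) : ℝ) * θ) with hf
  have hfc : Continuous f := by
    apply continuous_finsetSum
    intro x _
    exact continuous_const.mul (continuous_e.comp (by fun_prop))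
  have hN0 : (0 : ℝ) < N := by exact_mod_cast hN
  obtain ⟨A, hAm, hAc⟩ : ∃ A ∈ (Finset.Icc (1 : ℤ) N).powerset.filter (fun A => DiffFree h A),
      rMax h N = A.card := by
    unfold rMax
    apply Finset.exists_mem_eq_sup
    refine ⟨∅, ?_⟩
    simp [DiffFree]
  rw [Finset.mem_filter, Finset.mem_powerset] at hAm
  obtain ⟨hAs, hAd⟩ := hAm
  rw [hAc]
  set F : ℝ → ℂ := fts A (fun _ => (1 : ℂ)) with hF
  have hFc : Continuous F := continuous_fts A _
  -- parseval
  have hpars : ∫ θ in (0 : ℝ)..1, ‖F θ‖ ^ 2 = A.card := by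
    rw [hF, parseval]
    simp
  -- the correlation integral vanishes
  have hcorr : ∫ θ in (0 : ℝ)..1, ((‖F θ‖ ^ 2 : ℝ) : ℂ) * f θ = 0 := by
    have e1 : ∀ θ : ℝ, ((‖F θ‖ ^ 2 : ℝ) : ℂ) * f θ =
        ∑ x ∈ S, (w x : ℂ) * (((‖F θ‖ ^ 2 : ℝ) : ℂ) * e (((h.eval (x : ℤ) : ℤ) : ℝ) * θ)) := by
      intro θ
      rw [hf]
      simp only [Finset.mul_sum]
      apply Finset.sum_congr rfl
      intro x _
      ring
    simp_rw [e1]
    rw [intervalIntegral.integral_finsetSum]
    · apply Finset.sum_eq_zero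
      intro x hx
      rw [intervalIntegral.integral_const_mul, hF, integral_normSq_fts_mul,
        corr_zero h A hAd x (hS x hx).1 (hS x hx).2, mul_zero]
    · intro x _
      apply Continuous.intervalIntegrable
      apply continuous_const.mul
      apply Continuous.mul
      · exact Complex.continuous_ofReal.comp (hFc.norm.pow 2)
      · exact continuous_e.comp (by fun_prop)
  have hcorr2 : ∫ θ in (0 : ℝ)..1, ‖F θ‖ ^ 2 * (f θ).re = 0 := by
    have e2 : ∀ θ : ℝ, ‖F θ‖ ^ 2 * (f θ).re = (((‖F θ‖ ^ 2 : ℝ) : ℂ) * f θ).re := by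
      intro θ
      rw [Complex.re_ofReal_mul]
    simp_rw [e2]
    have h3 := Complex.reCLM.intervalIntegral_comp_comm
      (f := fun θ : ℝ => ((‖F θ‖ ^ 2 : ℝ) : ℂ) * f θ) (a := 0) (b := 1) (μ := volume) (by
        apply Continuous.intervalIntegrable
        exact (Complex.continuous_ofReal.comp (hFc.norm.pow 2)).mul hfc)
    rw [hcorr] at h3
    simpa using h3
  -- combine
  have hI : ∫ θ in (0 : ℝ)..1, ‖F θ‖ ^ 2 * ((f θ).re + δ) = δ * A.card := by
    have e3 : ∀ θ : ℝ, ‖F θ‖ ^ 2 * ((f θ).re + δ) = ‖F θ‖ ^ 2 * (f θ).re + δ * ‖F θ‖ ^ 2 := by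
      intro θ; ring
    simp_rw [e3]
    rw [intervalIntegral.integral_add, hcorr2, intervalIntegral.integral_const_mul, hpars, zero_add]
    · apply Continuous.intervalIntegrable
      exact (hFc.norm.pow 2).mul (Complex.continuous_re.comp hfc)
    · apply Continuous.intervalIntegrable
      exact continuous_const.mul (hFc.norm.pow 2)
  have hGc : Continuous (fun θ : ℝ => ‖F θ‖ ^ 2 * ((f θ).re + δ)) :=
    (hFc.norm.pow 2).mul ((Complex.continuous_re.comp hfc).add continuous_const)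
  have hG0 : ∀ θ : ℝ, 0 ≤ ‖F θ‖ ^ 2 * ((f θ).re + δ) := by
    intro θ
    have := h1 θ
    have h4 : 0 ≤ (f θ).re + δ := by
      have : -δ ≤ (f θ).re := this
      linarith
    positivity
  set b : ℝ := 1 / (8 * N) with hb
  have hb0 : 0 < b := by positivity
  have hb1 : b ≤ 1 := by
    rw [hb, div_le_one (by positivity)]
    have : (1 : ℝ) ≤ N := by exact_mod_cast hN
    linarith
  have hlow : ∫ θ in (0 : ℝ)..b, ‖F θ‖ ^ 2 * ((f θ).re + δ) ≤
      ∫ θ in (0 : ℝ)..1, ‖F θ‖ ^ 2 * ((f θ).re + δ) := by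
    rw [← intervalIntegral.integral_add_adjacent_intervals (b := b) (c := 1)
      (hGc.intervalIntegrable _ _) (hGc.intervalIntegrable _ _)]
    have : 0 ≤ ∫ θ in b..1, ‖F θ‖ ^ 2 * ((f θ).re + δ) :=
      intervalIntegral.integral_nonneg hb1 (fun θ _ => hG0 θ)
    linarith
  have hδ0 : 0 ≤ δ ∨ (A.card : ℝ) = 0 := by
    by_contra hcon
    push Not at hcon
    have hc0 : 0 < (A.card : ℝ) := lt_of_le_of_ne (Nat.cast_nonneg _) (Ne.symm hcon.2)
    have h5 : 0 ≤ ∫ θ in (0 : ℝ)..1, ‖F θ‖ ^ 2 * ((f θ).re + δ) :=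
      intervalIntegral.integral_nonneg (by norm_num) (fun θ _ => hG0 θ)
    rw [hI] at h5
    nlinarith [hcon.1]
  have hpt : ∀ θ ∈ Set.Icc (0 : ℝ) b, (A.card : ℝ) ^ 2 / 16 ≤ ‖F θ‖ ^ 2 * ((f θ).re + δ) := by
    intro θ hθ
    rcases hδ0 with hδ | hc
    · have hF1 : (A.card : ℝ) / 2 ≤ ‖F θ‖ := by
        have h6 : (A.card : ℝ) / 2 ≤ (F θ).re := by
          rw [hF]
          unfold fts
          rw [Complex.re_sum]
          have h7 : ∀ x ∈ A, (1 / 2 : ℝ) ≤ ((1 : ℂ) * e (-(x * θ))).re := by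
            intro x hx
            rw [one_mul]
            apply re_e_ge
            have hx2 := Finset.mem_Icc.1 (hAs hx)
            have hx0 : (0 : ℝ) ≤ x := by
              have : (0 : ℤ) ≤ x := by omega
              exact_mod_cast this
            have hxN : (x : ℝ) ≤ N := by exact_mod_cast hx2.2
            rw [abs_neg, abs_of_nonneg (mul_nonneg hx0 hθ.1)]
            calc (x : ℝ) * θ ≤ N * b := by
                  apply mul_le_mul hxN hθ.2 hθ.1 hN0.le
              _ = 1 / 8 := by rw [hb]; field_simp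
          calc (A.card : ℝ) / 2 = ∑ x ∈ A, (1 / 2 : ℝ) := by
                rw [Finset.sum_const, nsmul_eq_mul]; ring
            _ ≤ _ := Finset.sum_le_sum h7
        exact h6.trans (Complex.re_le_norm _)
      have hf1 : 1 / 4 ≤ (f θ).re + δ := by
        have := h2 θ (by rw [abs_of_nonneg hθ.1]; exact hθ.2)
        have h8 : 1 / 4 ≤ (f θ).re := this
        linarith
      have hc0 : (0 : ℝ) ≤ A.card := Nat.cast_nonneg _
      have h9 : ((A.card : ℝ) / 2) ^ 2 ≤ ‖F θ‖ ^ 2 := pow_le_pow_left₀ (by positivity) hF1 2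
      calc (A.card : ℝ) ^ 2 / 16 = ((A.card : ℝ) / 2) ^ 2 * (1 / 4) := by ring
        _ ≤ ‖F θ‖ ^ 2 * ((f θ).re + δ) := by
          apply mul_le_mul h9 hf1 (by norm_num) (by positivity)
    · rw [hc]
      have := hG0 θ
      simpa using this
  have hlow2 : b * ((A.card : ℝ) ^ 2 / 16) ≤ ∫ θ in (0 : ℝ)..b, ‖F θ‖ ^ 2 * ((f θ).re + δ) := by
    have h10 : ∫ θ in (0 : ℝ)..b, ((A.card : ℝ) ^ 2 / 16) = b * ((A.card : ℝ) ^ 2 / 16) := by
      rw [intervalIntegral.integral_const]; simp
    rw [← h10]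
    apply intervalIntegral.integral_mono_on hb0.le
    · exact intervalIntegrable_const
    · exact hGc.intervalIntegrable _ _
    · exact hpt
  have hfin : b * ((A.card : ℝ) ^ 2 / 16) ≤ δ * A.card := by
    rw [← hI]; exact hlow2.trans hlow
  rcases eq_or_lt_of_le (Nat.cast_nonneg A.card : (0 : ℝ) ≤ A.card) with hc | hc
  · rw [← hc]
    rcases hδ0 with hδ | _
    · positivity
    · -- δ ≥ 0 because f 0 ...; use Dirac: integral of Re f over the circle
      by_contra hcon
      push Not at hcon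
      have hδneg : δ < 0 := by
        by_contra h12
        push Not at h12
        have : 0 ≤ 128 * δ * N := by positivity
        linarith
      -- integrate f over [0,1]
      have hint : ∫ θ in (0 : ℝ)..1, f θ = 0 := by
        rw [hf]
        rw [intervalIntegral.integral_finsetSum]
        · apply Finset.sum_eq_zero
          intro x hx
          rw [intervalIntegral.integral_const_mul, integral_e, if_neg (hS x hx).2, mul_zero]
        · intro x _
          apply Continuous.intervalIntegrable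
          exact continuous_const.mul (continuous_e.comp (by fun_prop))
      have h13 := Complex.reCLM.intervalIntegral_comp_comm
        (f := f) (a := 0) (b := 1) (μ := volume) (hfc.intervalIntegrable _ _)
      rw [hint] at h13
      have h14 : ∫ θ in (0 : ℝ)..1, (f θ).re = 0 := by simpa using h13
      have h15 : ∫ θ in (0 : ℝ)..1, (-δ) ≤ ∫ θ in (0 : ℝ)..1, (f θ).re := by
        apply intervalIntegral.integral_mono_on (by norm_num)
        · exact intervalIntegrable_const
        · exact (Complex.continuous_re.comp hfc).intervalIntegrable _ _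
        · intro θ _
          exact h1 θ
      rw [h14, intervalIntegral.integral_const] at h15
      simp at h15
      linarith
  · have h11 : b * (A.card : ℝ) / 16 ≤ δ := by
      by_contra hcon
      push Not at hcon
      have := mul_lt_mul_of_pos_right hcon hc
      nlinarith
    rw [hb] at h11
    have h12 : 1 / (8 * (N : ℝ)) * (A.card : ℝ) / 16 = (A.card : ℝ) / (128 * N) := by
      field_simp; norm_num
    rw [h12, div_le_iff₀ (by positivity)] at h11
    linarith

end Vale.Agent.P042.PS463
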