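import Vale.Agent.P042.PS463.Growth
import Vale.Agent.P042.PS463.Lp
set_option autoImplicit false

namespace Vale.Agent.P042.PS463

open Polynomial Finset

/-- Fejer identity -/
lemma fejer_id (z : ℂ) (hz : z * (starRingEnd ℂ) z = 1) (L : ℕ) :
    (starRingEnd ℂ) (∑ j ∈ Finset.range L, z ^ j) * z ^ L = z * ∑ j ∈ Finset.range L, z ^ j := by
  induction L with
  | zero => simp
  | succ L ih =>
    rw [Finset.sum_range_succ, map_add, map_pow]
    have h1 : ((starRingEnd ℂ) (∑ x ∈ Finset.range L, z ^ x) + (starRingEnd ℂ) z ^ L) * z ^ (L + 1) =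
        z * ((starRingEnd ℂ) (∑ x ∈ Finset.range L, z ^ x) * z ^ L) +
          (z * (starRingEnd ℂ) z) ^ L * z := by
      rw [mul_pow]; ring
    rw [h1, ih, hz, one_pow, one_mul]
    -- now both sides
    have h2 : z * ∑ j ∈ Finset.range (L + 1), z ^ j = z * (∑ j ∈ Finset.range L, z ^ j + z ^ L) := by
      rw [Finset.sum_range_succ]
    have h3 := Finset.sum_range_succ' (fun j => z ^ j) L
    have h4 := Finset.sum_range_succ (fun j => z ^ j) L
    have h5 : ∑ j ∈ Finset.range L, z ^ (j + 1) = z * ∑ j ∈ Finset.range L, z ^ j := by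
      rw [Finset.mul_sum]
      apply Finset.sum_congr rfl
      intro j _
      ring
    rw [h4, h5, pow_zero] at h3
    rw [h3]
    ring

lemma fejer (z : ℂ) (hz : z * (starRingEnd ℂ) z = 1) (L : ℕ) :
    Complex.normSq (∑ j ∈ Finset.range L, z ^ j) + L =
      2 * (∑ j ∈ Finset.range L, ((L : ℂ) - j) * z ^ j).re := by
  induction L with
  | zero => simp
  | succ L ih =>
    set S := ∑ j ∈ Finset.range L, z ^ j with hS
    have h1 : Complex.normSq (S + z ^ L) =
        Complex.normSq S + 1 + 2 * ((starRingEnd ℂ) S * z ^ L).re := by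
      have hzL : Complex.normSq (z ^ L) = 1 := by
        have : ((Complex.normSq (z ^ L) : ℝ) : ℂ) = 1 := by
          rw [← Complex.mul_conj, map_pow, ← mul_pow, hz, one_pow]
        exact_mod_cast this
      rw [Complex.normSq_add, hzL]
      have : (S * (starRingEnd ℂ) (z ^ L)).re = ((starRingEnd ℂ) S * z ^ L).re := by
        rw [← Complex.conj_re, map_mul, Complex.conj_conj]
      rw [this]
    rw [Finset.sum_range_succ, ← hS, h1, hS, fejer_id z hz L, ← hS]
    have h2 : ∑ j ∈ Finset.range (L + 1), (((L + 1 : ℕ) : ℂ) - j) * z ^ j =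
        ∑ j ∈ Finset.range L, ((L : ℂ) - j) * z ^ j + (1 + z * S) := by
      have h3 : ∑ j ∈ Finset.range (L + 1), (((L + 1 : ℕ) : ℂ) - j) * z ^ j =
          ∑ j ∈ Finset.range (L + 1), ((L : ℂ) - j) * z ^ j + ∑ j ∈ Finset.range (L + 1), z ^ j := by
        rw [← Finset.sum_add_distrib]
        apply Finset.sum_congr rfl
        intro j _
        push_cast
        ring
      rw [h3, Finset.sum_range_succ, sub_self, zero_mul, add_zero, Finset.sum_range_succ']
      congr 1
      rw [pow_zero, add_comm]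
      congr 1
      rw [hS, Finset.mul_sum]
      apply Finset.sum_congr rfl
      intro j _
      ring
    rw [h2, Complex.add_re, mul_add, ← ih]
    simp only [Complex.add_re, Complex.one_re]
    push_cast
    ring

lemma e_mul_conj (x : ℝ) : e x * (starRingEnd ℂ) (e x) = 1 := by
  rw [Complex.mul_conj, Complex.normSq_eq_norm_sq, norm_e]
  simp

lemma e_nat (j : ℕ) (β : ℝ) : e (j * β) = e β ^ j := e_nat_mul j β

lemma W_re_nonneg (L : ℕ) (β : ℝ) :
    0 ≤ (∑ j ∈ Finset.range L, ((L : ℂ) - j) * e (j * β)).re := by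
  have h1 := fejer (e β) (e_mul_conj β) L
  have h2 : ∑ j ∈ Finset.range L, ((L : ℂ) - j) * e (j * β) =
      ∑ j ∈ Finset.range L, ((L : ℂ) - j) * e β ^ j := by
    apply Finset.sum_congr rfl
    intro j _
    rw [e_nat]
  rw [h2]
  have h3 := Complex.normSq_nonneg (∑ j ∈ Finset.range L, e β ^ j)
  have h4 : (0 : ℝ) ≤ L := Nat.cast_nonneg L
  linarith

lemma W_zero (L : ℕ) :
    (∑ j ∈ Finset.range L, ((L : ℂ) - j) * e (j * (0 : ℝ))) = (L : ℂ) * (L + 1) / 2 := by
  induction L with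
  | zero => simp
  | succ L ih =>
    simp only [mul_zero, e_zero, mul_one] at ih ⊢
    have h3 : ∑ j ∈ Finset.range (L + 1), (((L + 1 : ℕ) : ℂ) - j) =
        ∑ j ∈ Finset.range (L + 1), ((L : ℂ) - j) + ∑ j ∈ Finset.range (L + 1), (1 : ℂ) := by
      rw [← Finset.sum_add_distrib]
      apply Finset.sum_congr rfl
      intro j _
      push_cast
      ring
    rw [h3, Finset.sum_range_succ, ih]
    simp
    ring

variable {h : ℤ[X]} {X0 K : ℕ}

lemma Gr.mono (hG : Gr h X0 K) {x y : ℕ} (hx : X0 ≤ x) (hxy : x ≤ y) : hv h x ≤ hv h y := by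
  induction y, hxy using Nat.le_induction with
  | base => exact le_rfl
  | succ y hy ih =>
    have := hG.step y (hx.trans hy)
    linarith

lemma Gr.mono_step (hG : Gr h X0 K) {x y : ℕ} (hx : X0 ≤ x) (hxy : x ≤ y) :
    hv h (x + 1) - hv h x ≤ hv h (y + 1) - hv h y := by
  induction y, hxy using Nat.le_induction with
  | base => exact le_rfl
  | succ y hy ih =>
    have := hG.step2 y (hx.trans hy)
    exact ih.trans this

lemma Gr.hv_pos (hG : Gr h X0 K) {x : ℕ} (hx : X0 ≤ x) : 0 < hv h x := by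
  have h1 := hG.pos x hx
  have h2 : (0 : ℝ) < x := by
    have := hG.X0pos
    have : 0 < x := by omega
    exact_mod_cast this
  have : 0 < (1 : ℝ) / 2 * (x : ℝ) ^ h.natDegree := by positivity
  linarith

/-- natural number value -/
noncomputable def hn (h : ℤ[X]) (x : ℕ) : ℕ := (h.eval (x : ℤ)).toNat

lemma Gr.hn_eq (hG : Gr h X0 K) {x : ℕ} (hx : X0 ≤ x) : ((hn h x : ℕ) : ℝ) = hv h x := by
  have h1 := hG.hv_pos hx
  unfold hv at h1 ⊢
  have h2 : 0 < h.eval (x : ℤ) := by exact_mod_cast h1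
  unfold hn
  have h3 : (((h.eval (x : ℤ)).toNat : ℕ) : ℤ) = h.eval (x : ℤ) := Int.toNat_of_nonneg h2.le
  exact_mod_cast congrArg (Int.cast : ℤ → ℝ) h3

lemma Gr.hn_mono (hG : Gr h X0 K) {x y : ℕ} (hx : X0 ≤ x) (hxy : x ≤ y) : hn h x ≤ hn h y := by
  have := hG.mono hx hxy
  rw [← hG.hn_eq hx, ← hG.hn_eq (hx.trans hxy)] at this
  exact_mod_cast this

/-- the weight -/
noncomputable def kap (h : ℤ[X]) (X x : ℕ) : ℝ :=
  2 / hv h X ^ 2 * ((hv h (x + 1) - hv h x) * (hv h X - hv h x))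

/-- the kernel -/
noncomputable def VV (h : ℤ[X]) (X0 X : ℕ) (β : ℝ) : ℂ :=
  ∑ x ∈ Finset.Ico X0 X, (kap h X x : ℂ) * e (hv h x * β)

/-- maximal step divided by `L` -/
noncomputable def rr (h : ℤ[X]) (X : ℕ) : ℝ := (hv h (X + 1) - hv h X) / hv h X

lemma Gr.rr_le (hG : Gr h X0 K) (hk : 1 ≤ h.natDegree) {X : ℕ} (hX : X0 ≤ X) :
    rr h X ≤ 2 * K / X := by
  unfold rr
  have hX1 : 1 ≤ X := by have := hG.X0pos; omega
  have hXr : (0 : ℝ) < X := by exact_mod_cast hX1
  have h1 := hG.upstep X hX1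
  have h2 := hG.pos X hX
  have h3 := hG.hv_pos hX
  rw [div_le_div_iff₀ h3 hXr]
  have h4 : (X : ℝ) ^ h.natDegree = (X : ℝ) ^ (h.natDegree - 1) * X := by
    rw [← pow_succ]
    congr 1
    omega
  calc (hv h (X + 1) - hv h X) * X ≤ K * (X : ℝ) ^ (h.natDegree - 1) * X := by gcongr
    _ = 2 * K * ((1 : ℝ) / 2 * (X : ℝ) ^ h.natDegree) := by rw [h4]; ring
    _ ≤ 2 * K * hv h X := by gcongr

lemma Gr.rr_nonneg (hG : Gr h X0 K) {X : ℕ} (hX : X0 ≤ X) : 0 ≤ rr h X := by
  unfold rr
  have h1 := hG.step X hX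
  have h3 := hG.hv_pos hX
  apply div_nonneg _ h3.le
  linarith

lemma Gr.kap_nonneg (hG : Gr h X0 K) {X x : ℕ} (hx : X0 ≤ x) (hX : x ≤ X) : 0 ≤ kap h X x := by
  unfold kap
  have h1 := hG.step x hx
  have h2 := hG.mono hx hX
  have h3 := hG.hv_pos (hx.trans hX)
  apply mul_nonneg (by positivity)
  apply mul_nonneg <;> linarith

lemma Gr.kap_le (hG : Gr h X0 K) {X x : ℕ} (hx : X0 ≤ x) (hX : x ≤ X) : kap h X x ≤ 2 * rr h X := by
  unfold kap rr
  have h1 := hG.step x hx
  have h2 := hG.mono hx hX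
  have h3 := hG.hv_pos (hx.trans hX)
  have h4 := hG.mono_step hx hX
  have h5 := hG.hv_pos hx
  calc 2 / hv h X ^ 2 * ((hv h (x + 1) - hv h x) * (hv h X - hv h x))
      ≤ 2 / hv h X ^ 2 * ((hv h (X + 1) - hv h X) * hv h X) := by
        apply mul_le_mul_of_nonneg_left _ (by positivity)
        apply mul_le_mul h4 (by linarith) (by linarith)
        linarith
    _ = 2 * ((hv h (X + 1) - hv h X) / hv h X) := by field_simp

lemma Gr.kap_var (hG : Gr h X0 K) {X : ℕ} (hX : X0 ≤ X) :
    ∑ x ∈ Finset.Ico X0 X, |kap h X (x + 1) - kap h X x| ≤ 4 * rr h X := by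
  have h3 := hG.hv_pos hX
  have key : ∀ x ∈ Finset.Ico X0 X, |kap h X (x + 1) - kap h X x| ≤
      2 / hv h X ^ 2 * (hv h X * ((hv h (x + 2) - hv h (x + 1)) - (hv h (x + 1) - hv h x)) +
        (hv h (X + 1) - hv h X) * (hv h (x + 1) - hv h x)) := by
    intro x hx
    rw [Finset.mem_Ico] at hx
    have e1 : kap h X (x + 1) - kap h X x = 2 / hv h X ^ 2 *
        (((hv h (x + 2) - hv h (x + 1)) - (hv h (x + 1) - hv h x)) * (hv h X - hv h (x + 1)) -
          (hv h (x + 1) - hv h x) * (hv h (x + 1) - hv h x)) := by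
      unfold kap
      ring
    rw [e1, abs_mul, abs_of_nonneg (by positivity : (0 : ℝ) ≤ 2 / hv h X ^ 2)]
    apply mul_le_mul_of_nonneg_left _ (by positivity)
    have a1 := hG.step x hx.1
    have a2 := hG.step2 x hx.1
    have a3 := hG.mono_step hx.1 hx.2.le
    have a4 : hv h (x + 1) ≤ hv h X := hG.mono (by omega) (by omega)
    have a5 := hG.hv_pos (x := x + 1) (by omega)
    refine (abs_sub _ _).trans ?_
    apply add_le_add
    · rw [abs_of_nonneg (mul_nonneg (by linarith) (by linarith)), mul_comm]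
      apply mul_le_mul_of_nonneg_right (by linarith) (by linarith)
    · rw [abs_of_nonneg (mul_nonneg (by linarith) (by linarith))]
      apply mul_le_mul_of_nonneg_right a3 (by linarith)
  refine (Finset.sum_le_sum key).trans ?_
  rw [← Finset.mul_sum, Finset.sum_add_distrib, ← Finset.mul_sum, ← Finset.mul_sum]
  have t1 : ∑ x ∈ Finset.Ico X0 X, (hv h (x + 1) - hv h x) = hv h X - hv h X0 := by
    rw [Finset.sum_Ico_sub (hv h) hX]
  have t2 : ∑ x ∈ Finset.Ico X0 X, ((hv h (x + 2) - hv h (x + 1)) - (hv h (x + 1) - hv h x)) =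
      (hv h (X + 1) - hv h X) - (hv h (X0 + 1) - hv h X0) := by
    rw [Finset.sum_Ico_sub (fun x => hv h (x + 1) - hv h x) hX]
  rw [t1, t2]
  have b1 := hG.step X0 le_rfl
  have b2 := hG.hv_pos (x := X0) le_rfl
  have b3 := hG.step X hX
  unfold rr
  calc 2 / hv h X ^ 2 * (hv h X * ((hv h (X + 1) - hv h X) - (hv h (X0 + 1) - hv h X0)) +
        (hv h (X + 1) - hv h X) * (hv h X - hv h X0))
      ≤ 2 / hv h X ^ 2 * (hv h X * (hv h (X + 1) - hv h X) +
        (hv h (X + 1) - hv h X) * hv h X) := by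
        apply mul_le_mul_of_nonneg_left _ (by positivity)
        apply add_le_add
        · apply mul_le_mul_of_nonneg_left _ h3.le
          linarith
        · apply mul_le_mul_of_nonneg_left _ (by linarith)
          linarith
    _ = 4 * ((hv h (X + 1) - hv h X) / hv h X) := by field_simp; ring

/-- splitting `range (hn X)` into blocks -/
lemma Gr.split (hG : Gr h X0 K) {X : ℕ} (hX : X0 ≤ X) (f : ℕ → ℂ) :
    ∑ j ∈ Finset.range (hn h X), f j = ∑ j ∈ Finset.range (hn h X0), f j +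
      ∑ x ∈ Finset.Ico X0 X, ∑ j ∈ Finset.Ico (hn h x) (hn h (x + 1)), f j := by
  induction X, hX using Nat.le_induction with
  | base => simp
  | succ X hX ih =>
    rw [Finset.sum_Ico_succ_top hX, ← add_assoc, ← ih,
      Finset.sum_range_add_sum_Ico _ (hG.hn_mono hX (Nat.le_succ X))]

lemma Gr.V_approx (hG : Gr h X0 K) {X : ℕ} (hX : X0 ≤ X) (β : ℝ) :
    ‖VV h X0 X β - 2 / (hv h X : ℂ) ^ 2 * ∑ j ∈ Finset.range (hn h X), ((hn h X : ℂ) - j) * e (j * β)‖ ≤
      2 * rr h X * (1 + 2 * Real.pi * |β| * hv h X) + 2 * hv h X0 / hv h X := by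
  have hL := hG.hv_pos hX
  have hπ := Real.pi_pos
  have hnX : ((hn h X : ℕ) : ℂ) = (hv h X : ℂ) := by
    have := hG.hn_eq hX
    exact_mod_cast congrArg (Complex.ofReal) this
  have e1 : VV h X0 X β = 2 / (hv h X : ℂ) ^ 2 * ∑ x ∈ Finset.Ico X0 X,
      ∑ j ∈ Finset.Ico (hn h x) (hn h (x + 1)), ((hv h X : ℂ) - hv h x) * e (hv h x * β) := by
    unfold VV
    rw [Finset.mul_sum]
    apply Finset.sum_congr rfl
    intro x hx
    rw [Finset.mem_Ico] at hx
    rw [Finset.sum_const, Nat.card_Ico, nsmul_eq_mul, Nat.cast_sub (hG.hn_mono hx.1 (Nat.le_succ x))]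
    have h1 : ((hn h x : ℕ) : ℂ) = (hv h x : ℂ) := by
      exact_mod_cast congrArg (Complex.ofReal) (hG.hn_eq hx.1)
    have h2 : ((hn h (x + 1) : ℕ) : ℂ) = (hv h (x + 1) : ℂ) := by
      exact_mod_cast congrArg (Complex.ofReal) (hG.hn_eq (x := x + 1) (by omega))
    rw [h1, h2]
    unfold kap
    push_cast
    ring
  rw [e1, hG.split hX, ← mul_sub, norm_mul]
  have e2 : ‖(2 / (hv h X : ℂ) ^ 2 : ℂ)‖ = 2 / hv h X ^ 2 := by
    rw [norm_div, norm_pow, Complex.norm_real, Real.norm_eq_abs, abs_of_pos hL]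
    simp
  rw [e2]
  have e3 : ∀ (a b c : ℂ), a - (b + c) = (a - c) - b := by intro a b c; ring
  rw [e3, ← Finset.sum_sub_distrib]
  have b1 : ‖∑ j ∈ Finset.range (hn h X0), ((hn h X : ℂ) - j) * e (j * β)‖ ≤ hv h X0 * hv h X := by
    refine (norm_sum_le _ _).trans ?_
    calc ∑ j ∈ Finset.range (hn h X0), ‖((hn h X : ℂ) - j) * e (j * β)‖
        ≤ ∑ j ∈ Finset.range (hn h X0), hv h X := by
          apply Finset.sum_le_sum
          intro j hj
          rw [Finset.mem_range] at hj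
          rw [norm_mul, norm_e, mul_one, hnX]
          have hjX : (j : ℝ) ≤ hv h X := by
            rw [← hG.hn_eq hX]
            have := hG.hn_mono le_rfl hX
            exact_mod_cast (by omega : j ≤ hn h X)
          have : ((hv h X : ℂ) - (j : ℂ)) = ((hv h X - j : ℝ) : ℂ) := by push_cast; ring
          rw [this, Complex.norm_real, Real.norm_eq_abs, abs_of_nonneg (by linarith)]
          have : (0 : ℝ) ≤ j := Nat.cast_nonneg j
          linarith
      _ = hv h X0 * hv h X := by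
          rw [Finset.sum_const, Finset.card_range, nsmul_eq_mul, hG.hn_eq le_rfl]
  have b2 : ‖∑ x ∈ Finset.Ico X0 X, (∑ j ∈ Finset.Ico (hn h x) (hn h (x + 1)),
        ((hv h X : ℂ) - hv h x) * e (hv h x * β) -
      ∑ j ∈ Finset.Ico (hn h x) (hn h (x + 1)), ((hn h X : ℂ) - j) * e (j * β))‖ ≤
      hv h X * ((hv h (X + 1) - hv h X) * (1 + 2 * Real.pi * |β| * hv h X)) := by
    refine (norm_sum_le _ _).trans ?_
    have b3 : ∀ x ∈ Finset.Ico X0 X, ‖∑ j ∈ Finset.Ico (hn h x) (hn h (x + 1)),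
        ((hv h X : ℂ) - hv h x) * e (hv h x * β) -
      ∑ j ∈ Finset.Ico (hn h x) (hn h (x + 1)), ((hn h X : ℂ) - j) * e (j * β)‖ ≤
      (hv h (x + 1) - hv h x) * ((hv h (X + 1) - hv h X) * (1 + 2 * Real.pi * |β| * hv h X)) := by
      intro x hx
      rw [Finset.mem_Ico] at hx
      have c1 := hG.step x hx.1
      have c2 := hG.mono hx.1 hx.2.le
      have c3 := hG.mono_step hx.1 hx.2.le
      have c4 := hG.hv_pos hx.1
      rw [← Finset.sum_sub_distrib]
      refine (norm_sum_le _ _).trans ?_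
      have b4 : ∀ j ∈ Finset.Ico (hn h x) (hn h (x + 1)),
          ‖((hv h X : ℂ) - hv h x) * e (hv h x * β) - ((hn h X : ℂ) - j) * e (j * β)‖ ≤
          (hv h (X + 1) - hv h X) * (1 + 2 * Real.pi * |β| * hv h X) := by
        intro j hj
        rw [Finset.mem_Ico] at hj
        have d1 : hv h x ≤ j := by
          rw [← hG.hn_eq hx.1]; exact_mod_cast hj.1
        have d2 : (j : ℝ) ≤ hv h (x + 1) := by
          rw [← hG.hn_eq (x := x + 1) (by omega)]; exact_mod_cast hj.2.le
        rw [hnX]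
        have d3 : ((hv h X : ℂ) - hv h x) * e (hv h x * β) - ((hv h X : ℂ) - j) * e (j * β) =
            ((j - hv h x : ℝ) : ℂ) * e (j * β) -
              ((hv h X - hv h x : ℝ) : ℂ) * (e (hv h x * β) * (e ((j - hv h x) * β) - 1)) := by
          have : e (j * β) = e (hv h x * β) * e ((j - hv h x) * β) := by
            rw [← e_add]; congr 1; ring
          rw [this]
          push_cast
          ring
        rw [d3]
        refine (norm_sub_le _ _).trans ?_
        rw [norm_mul, norm_mul, norm_mul, norm_e, norm_e, Complex.norm_real, Complex.norm_real,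
          Real.norm_eq_abs, Real.norm_eq_abs, abs_of_nonneg (by linarith : (0 : ℝ) ≤ j - hv h x),
          abs_of_nonneg (by linarith : (0 : ℝ) ≤ hv h X - hv h x), mul_one, one_mul]
        have d4 := norm_e_sub_one_le ((j - hv h x) * β)
        rw [abs_mul, abs_of_nonneg (by linarith : (0 : ℝ) ≤ j - hv h x)] at d4
        have d5 : (j : ℝ) - hv h x ≤ hv h (X + 1) - hv h X := by linarith
        have d6 : ‖e ((j - hv h x) * β) - 1‖ ≤ 2 * Real.pi * ((hv h (X + 1) - hv h X) * |β|) := by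
          refine d4.trans ?_
          gcongr
        calc _ ≤ (hv h (X + 1) - hv h X) +
            hv h X * (2 * Real.pi * ((hv h (X + 1) - hv h X) * |β|)) := by
              apply add_le_add d5
              apply mul_le_mul (by linarith) d6 (norm_nonneg _) hL.le
          _ = _ := by ring
      refine (Finset.sum_le_sum b4).trans ?_
      rw [Finset.sum_const, Nat.card_Ico, nsmul_eq_mul, Nat.cast_sub (hG.hn_mono hx.1 (Nat.le_succ x)),
        hG.hn_eq hx.1, hG.hn_eq (x := x + 1) (by omega)]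
    refine (Finset.sum_le_sum b3).trans ?_
    rw [← Finset.sum_mul, Finset.sum_Ico_sub (hv h) hX]
    have c5 := hG.step X hX
    have c6 := hG.hv_pos (x := X0) le_rfl
    apply mul_le_mul_of_nonneg_right (by linarith)
    apply mul_nonneg (by linarith)
    positivity
  calc 2 / hv h X ^ 2 * _ ≤ 2 / hv h X ^ 2 *
        (hv h X * ((hv h (X + 1) - hv h X) * (1 + 2 * Real.pi * |β| * hv h X)) + hv h X0 * hv h X) := by
        apply mul_le_mul_of_nonneg_left _ (by positivity)
        exact (norm_sub_le _ _).trans (add_le_add b2 b1)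
    _ = _ := by
      unfold rr
      field_simp

end Vale.Agent.P042.PS463
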