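import Vale.Agent.P042.PS463.Minor
set_option autoImplicit false

namespace Vale.Agent.P042.PS463

open Polynomial Finset

variable {h : ℤ[X]} {X0 K : ℕ}

/-- lower bound for the real part of a product `F V`, `|Im F| ≤ η`, `Re F ≥ -η`, `|F| ≤ Z` -/
lemma re_mul_ge (F V : ℂ) (η Z ε : ℝ) (hF : |F.im| ≤ η) (hFη : -η ≤ F.re) (hη : 0 ≤ η)
    (hZ : ‖F‖ ≤ Z) (hV : ‖V‖ ≤ 2) (hε : 0 ≤ ε) (hVε : -ε ≤ V.re) :
    -(4 * η) - Z * ε ≤ (F * V).re := by
  have hZ0 : 0 ≤ Z := (norm_nonneg _).trans hZ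
  rw [Complex.mul_re]
  have h1 : |F.re| ≤ Z := (Complex.abs_re_le_norm F).trans hZ
  have h2 : |V.re| ≤ 2 := (Complex.abs_re_le_norm V).trans hV
  have h2' : |V.im| ≤ 2 := (Complex.abs_im_le_norm V).trans hV
  have h0 : |F.im * V.im| ≤ η * 2 := by
    rw [abs_mul]
    exact mul_le_mul hF h2' (abs_nonneg _) hη
  have h0' := (abs_le.1 h0).2
  rcases le_or_gt 0 F.re with hF0 | hF0
  · have h3 : F.re * (-ε) ≤ F.re * V.re := mul_le_mul_of_nonneg_left hVε hF0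
    have h4 : F.re ≤ Z := (le_abs_self _).trans h1
    nlinarith
  · have h3 : |F.re * V.re| ≤ η * 2 := by
      rw [abs_mul]
      apply mul_le_mul _ h2 (abs_nonneg _) hη
      rw [abs_of_neg hF0]
      linarith
    have h4 := (abs_le.1 h3).1
    have h5 : 0 ≤ Z * ε := mul_nonneg hZ0 hε
    linarith

lemma mn_norm (h : ℤ[X]) (u : ℤ → ℝ) (n q : ℕ) (hn : 1 ≤ n) (hq : 1 ≤ q) (a : ℤ) (U : ℝ)
    (hU : ∀ x, |u x| ≤ U) : ‖mn h u n q a‖ ≤ U := by
  have hnq : 1 ≤ n * q := Nat.one_le_iff_ne_zero.2 (Nat.mul_ne_zero (by omega) (by omega))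
  unfold mn
  rw [norm_div, Complex.norm_natCast, div_le_iff₀ (by exact_mod_cast hnq)]
  refine (norm_sum_le _ _).trans ?_
  calc _ ≤ ∑ x ∈ Finset.range (n * q), U := by
        apply Finset.sum_le_sum
        intro x _
        rw [norm_mul, norm_e, mul_one, Complex.norm_real, Real.norm_eq_abs]
        exact hU _
    _ = U * ((n * q : ℕ) : ℝ) := by
        rw [Finset.sum_const, Finset.card_range, nsmul_eq_mul, mul_comm]

lemma num_eps {K D X H0 r b L s : ℝ} (hK : 1 ≤ K) (hD : 1 ≤ D) (hX : 1 ≤ X)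
    (hH0 : 0 ≤ H0) (hr0 : 0 ≤ r) (hr : r ≤ 2 * K / X) (hbL0 : 0 ≤ b * L) (hbL : b * L ≤ K * D)
    (hs : s ≤ 4 * H0 / X) :
    2 * r * (1 + 2 * Real.pi * b * L) + s ≤ (32 * K ^ 2 + 4 * H0) * D / X := by
  have hπ := Real.pi_pos
  have hπ4 : Real.pi < 3.15 := Real.pi_lt_d2
  have hKD : 1 ≤ K * D := by nlinarith
  have hX0 : 0 < X := by linarith
  have h7 : 2 * r * (1 + 2 * Real.pi * b * L) ≤ 2 * (2 * K / X) * (8 * (K * D)) := by
    have e1 : 2 * Real.pi * b * L = 2 * Real.pi * (b * L) := by ring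
    rw [e1]
    have h8 : 2 * Real.pi * (b * L) ≤ 7 * (K * D) := by
      apply mul_le_mul (by linarith) hbL hbL0 (by norm_num)
    apply mul_le_mul (by linarith) (by linarith) _ (by positivity)
    have : 0 ≤ 2 * Real.pi * (b * L) := by positivity
    linarith
  have h9 : 4 * H0 / X ≤ 4 * H0 * D / X := by
    apply div_le_div_of_nonneg_right _ hX0.le
    nlinarith
  calc 2 * r * (1 + 2 * Real.pi * b * L) + s ≤ 2 * (2 * K / X) * (8 * (K * D)) + 4 * H0 * D / X :=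
        add_le_add h7 (hs.trans h9)
    _ = (32 * K ^ 2 + 4 * H0) * D / X := by ring

lemma num_maj {l K D Q X r b L q : ℝ} {B : ℕ} (hl : 1 ≤ l) (hK : 1 ≤ K) (hD : 1 ≤ D)
    (hQ : 1 ≤ Q) (hX : 1 ≤ X) (hr0 : 0 ≤ r) (hr : r ≤ 2 * K / X) (hbL0 : 0 ≤ b * L)
    (hbL : b * L ≤ K * D) (hq0 : 0 ≤ q) (hq : q ≤ l * D) :
    2 * q * Q ^ (B + 2) * (r * (6 + 4 * Real.pi * b * L)) ≤
      76 * l * K ^ 2 * D ^ 2 * Q ^ (B + 2) / X := by
  have hπ := Real.pi_pos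
  have hπ4 : Real.pi < 3.15 := Real.pi_lt_d2
  have hKD : 1 ≤ K * D := by nlinarith
  have hX0 : 0 < X := by linarith
  have e1 : 4 * Real.pi * b * L = 4 * Real.pi * (b * L) := by ring
  rw [e1]
  have h8 : 4 * Real.pi * (b * L) ≤ 13 * (K * D) := by
    apply mul_le_mul (by linarith) hbL hbL0 (by norm_num)
  have h8' : 0 ≤ 4 * Real.pi * (b * L) := by positivity
  have h10 : 6 + 4 * Real.pi * (b * L) ≤ 19 * (K * D) := by linarith
  have hQp : 0 < Q ^ (B + 2) := by positivity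
  calc 2 * q * Q ^ (B + 2) * (r * (6 + 4 * Real.pi * (b * L)))
      ≤ 2 * (l * D) * Q ^ (B + 2) * ((2 * K / X) * (19 * (K * D))) := by
        apply mul_le_mul _ _ (mul_nonneg hr0 (by linarith)) (by positivity)
        · apply mul_le_mul_of_nonneg_right _ hQp.le
          linarith
        · exact mul_le_mul hr h10 (by linarith) (by positivity)
    _ = _ := by ring

lemma num_tot {l K D Q X H0 ε E1 : ℝ} {B : ℕ} (hl : 1 ≤ l) (hK : 1 ≤ K) (hD : 1 ≤ D)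
    (hQ : 1 ≤ Q) (hX : 1 ≤ X) (hH0 : 0 ≤ H0)
    (hε : ε ≤ (32 * K ^ 2 + 4 * H0) * D / X)
    (hE1 : E1 ≤ 76 * l * K ^ 2 * D ^ 2 * Q ^ (B + 2) / X)
    (hXbig : (76 * l * K ^ 2 + 32 * K ^ 2 + 136 * K + 8 * H0) * (D ^ 2 * Q ^ (B + 3)) ≤ X) :
    Q ^ (B + 1) * ε + E1 ≤ 1 / Q := by
  have hX0 : 0 < X := by linarith
  have hQ0 : 0 < Q := by linarith
  have hQ1 : 0 < Q ^ (B + 1) := by positivity
  have h11 : Q ^ (B + 1) * ε ≤ (32 * K ^ 2 + 4 * H0) * D ^ 2 * Q ^ (B + 2) / X := by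
    calc Q ^ (B + 1) * ε ≤ Q ^ (B + 1) * ((32 * K ^ 2 + 4 * H0) * D / X) :=
          mul_le_mul_of_nonneg_left hε hQ1.le
      _ = (32 * K ^ 2 + 4 * H0) * (D * Q ^ (B + 1)) / X := by ring
      _ ≤ (32 * K ^ 2 + 4 * H0) * (D ^ 2 * Q ^ (B + 2)) / X := by
          apply div_le_div_of_nonneg_right _ hX0.le
          apply mul_le_mul_of_nonneg_left _ (by positivity)
          apply mul_le_mul _ _ hQ1.le (by positivity)
          · nlinarith
          · exact pow_le_pow_right₀ hQ (by omega)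
      _ = _ := by ring
  refine (add_le_add h11 hE1).trans ?_
  rw [← add_div, div_le_div_iff₀ hX0 hQ0, one_mul]
  refine le_trans ?_ hXbig
  have e1 : ((32 * K ^ 2 + 4 * H0) * D ^ 2 * Q ^ (B + 2) +
      76 * l * K ^ 2 * D ^ 2 * Q ^ (B + 2)) * Q =
      (76 * l * K ^ 2 + 32 * K ^ 2 + 4 * H0) * (D ^ 2 * Q ^ (B + 3)) := by
    ring
  rw [e1]
  apply mul_le_mul_of_nonneg_right _ (by positivity)
  linarith

/-- the bound on the major arcs -/
lemma Gr.low_major (hG : Gr h X0 K) (hk : 2 ≤ h.natDegree) {X : ℕ} (hX : X0 ≤ X) (B Q : ℕ)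
    (hQ : 1 ≤ Q) (η : ℝ) (hη : 0 ≤ η) (u : ℕ → ℤ → ℝ) (hu : Adm h B Q η u) (l D : ℝ)
    (hl : 1 ≤ l) (hD : 1 ≤ D)
    (hXbig : (76 * l * (K : ℝ) ^ 2 + 32 * (K : ℝ) ^ 2 + 136 * K + 8 * hv h X0) *
      (D ^ 2 * (Q : ℝ) ^ (B + 3)) ≤ X)
    (q : ℕ) (a : ℤ) (hq1 : 1 ≤ q) (hqD : (q : ℝ) ≤ l * D) (hcop : IsCoprime a (q : ℤ)) (θ : ℝ)
    (hβ : |θ - a / q| ≤ D / (X : ℝ) ^ h.natDegree) :
    -(4 * η + 1 / Q) ≤ (ff h u Q X0 X θ).re := by
  have hX01 := hG.X0pos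
  have hX1 : 1 ≤ X := by omega
  have hXr : (1 : ℝ) ≤ X := by exact_mod_cast hX1
  have hQr : (1 : ℝ) ≤ Q := by exact_mod_cast hQ
  have hKr : (1 : ℝ) ≤ K := by exact_mod_cast hG.Kpos
  have hrr0 := hG.rr_nonneg hX
  have hrr := hG.rr_le (by omega) hX
  have hL := hG.hv_pos hX
  have hLup := hG.up X hX1
  have hLlow := hG.pos X hX
  have hH0 := hG.hv_pos (x := X0) le_rfl
  have hπ := Real.pi_pos
  have hXk : (X : ℝ) ≤ (X : ℝ) ^ h.natDegree := by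
    calc (X : ℝ) = (X : ℝ) ^ 1 := (pow_one _).symm
      _ ≤ (X : ℝ) ^ h.natDegree := pow_le_pow_right₀ hXr (by omega)
  have hH0L : 2 * hv h X0 / hv h X ≤ 4 * hv h X0 / X := by
    rw [div_le_div_iff₀ hL (by linarith)]
    have h1 : (X : ℝ) ≤ 2 * hv h X := by linarith
    nlinarith
  set β : ℝ := θ - a / q with hβd
  have hθ : θ = a / q + β := by rw [hβd]; ring
  have hXk0 : (0 : ℝ) < (X : ℝ) ^ h.natDegree := by positivity
  have hβL : |β| * hv h X ≤ K * D := by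
    calc |β| * hv h X ≤ (D / (X : ℝ) ^ h.natDegree) * (K * (X : ℝ) ^ h.natDegree) := by
          apply mul_le_mul hβ hLup hL.le
          apply div_nonneg (by linarith) hXk0.le
      _ = K * D := by field_simp
  have hβL0 : 0 ≤ |β| * hv h X := mul_nonneg (abs_nonneg _) hL.le
  have hmaj := hG.major hX B Q u hu.per hu.bd q hq1 a β
  rw [← hθ] at hmaj
  set F : ℂ := ∑ n ∈ Finset.Icc 1 Q, mn h (u n) n q a with hF
  have hFn : ‖F‖ ≤ (Q : ℝ) ^ (B + 1) := by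
    rw [hF]
    refine (norm_sum_le _ _).trans ?_
    calc _ ≤ ∑ n ∈ Finset.Icc 1 Q, (Q : ℝ) ^ B := by
          apply Finset.sum_le_sum
          intro n hn
          rw [Finset.mem_Icc] at hn
          have hnQ : (n : ℝ) ≤ Q := by exact_mod_cast hn.2
          exact (mn_norm h (u n) n q hn.1 hq1 a _ (hu.bd n hn.1 hn.2)).trans
            (pow_le_pow_left₀ (Nat.cast_nonneg n) hnQ B)
      _ = (Q : ℝ) ^ (B + 1) := by
          rw [Finset.sum_const, Nat.card_Icc, nsmul_eq_mul, Nat.add_sub_cancel]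
          ring
  set ε : ℝ := 2 * rr h X * (1 + 2 * Real.pi * |β| * hv h X) + 2 * hv h X0 / hv h X with hε
  have hε0 : 0 ≤ ε := by positivity
  have hre := re_mul_ge F (VV h X0 X β) η ((Q : ℝ) ^ (B + 1)) ε (hu.re q hq1 a hcop)
    (hu.ge q hq1 a hcop) hη hFn (hG.V_norm hX β) hε0 (hG.V_re hX β)
  have h5 : |(ff h u Q X0 X θ - F * VV h X0 X β).re| ≤ _ :=
    (Complex.abs_re_le_norm _).trans hmaj
  rw [Complex.sub_re] at h5
  have h6 := (abs_le.1 h5).1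
  have hεb : ε ≤ (32 * (K : ℝ) ^ 2 + 4 * hv h X0) * D / X :=
    num_eps hKr hD hXr hH0.le hrr0 hrr hβL0 hβL hH0L
  have hE1 := num_maj (l := l) (K := K) (D := D) (Q := Q) (X := X) (r := rr h X) (b := |β|)
    (L := hv h X) (q := q) (B := B) hl hKr hD hQr hXr hrr0 hrr hβL0 hβL (Nat.cast_nonneg q) hqD
  have hEt := num_tot hl hKr hD hQr hXr hH0.le hεb hE1 hXbig
  linarith

/-- the bound on the minor arcs -/
lemma Gr.low_minor (hG : Gr h X0 K) (hk : 2 ≤ h.natDegree) {X : ℕ} (hX : X0 ≤ X) (B Q : ℕ)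
    (hQ : 1 ≤ Q) (η : ℝ) (u : ℕ → ℤ → ℝ) (hu : Adm h B Q η u) (δ : ℝ)
    (hδ : δ = 1 / (12 * K * (Q : ℝ) ^ (B + 3))) (θ : ℝ)
    (hmin : ∀ n, 1 ≤ n → n ≤ Q → ∀ c < n, ∀ M ≤ X,
        ‖∑ x ∈ Finset.range M, e (θ * hv h x + (c : ℝ) / n * x)‖ ≤ δ * X) :
    -(1 / (Q : ℝ)) ≤ (ff h u Q X0 X θ).re := by
  have hX01 := hG.X0pos
  have hX1 : 1 ≤ X := by omega
  have hXr : (1 : ℝ) ≤ X := by exact_mod_cast hX1
  have hQr : (1 : ℝ) ≤ Q := by exact_mod_cast hQ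
  have hKr : (1 : ℝ) ≤ K := by exact_mod_cast hG.Kpos
  have hrr0 := hG.rr_nonneg hX
  have hrr := hG.rr_le (by omega) hX
  have hδ0 : 0 < δ := by rw [hδ]; positivity
  have h1 := hG.minor hX B Q u hu.per hu.bd θ (δ * X) (by positivity) hmin
  have h2 : (Q : ℝ) ^ (B + 2) * (δ * X * (6 * rr h X)) ≤ 1 / Q := by
    calc (Q : ℝ) ^ (B + 2) * (δ * X * (6 * rr h X))
        ≤ (Q : ℝ) ^ (B + 2) * (δ * X * (6 * (2 * K / X))) := by gcongr
      _ = 1 / Q := by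
          rw [hδ]
          have : (X : ℝ) ≠ 0 := by positivity
          have : (K : ℝ) ≠ 0 := by positivity
          have : (Q : ℝ) ≠ 0 := by positivity
          field_simp
          ring
  have h3 : |(ff h u Q X0 X θ).re| ≤ 1 / Q :=
    (Complex.abs_re_le_norm _).trans (h1.trans h2)
  exact (abs_le.1 h3).1

/-- the bound near zero -/
lemma Gr.near_zero (hG : Gr h X0 K) (hk : 2 ≤ h.natDegree) {X : ℕ} (hX : X0 ≤ X) (B Q : ℕ)
    (hQ : 1 ≤ Q) (η : ℝ) (u : ℕ → ℤ → ℝ) (hu : Adm h B Q η u)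
    (hXbig : (136 * K + 8 * hv h X0) * (Q : ℝ) ^ (B + 2) ≤ X) (N : ℕ) (hN : hv h X ≤ N) (θ : ℝ)
    (hθ : |θ| ≤ 1 / (8 * N)) :
    1 / 4 ≤ (ff h u Q X0 X θ).re := by
  have hX01 := hG.X0pos
  have hX1 : 1 ≤ X := by omega
  have hXr : (1 : ℝ) ≤ X := by exact_mod_cast hX1
  have hQr : (1 : ℝ) ≤ Q := by exact_mod_cast hQ
  have hKr : (1 : ℝ) ≤ K := by exact_mod_cast hG.Kpos
  have hrr0 := hG.rr_nonneg hX
  have hrr := hG.rr_le (by omega) hX
  have hL := hG.hv_pos hX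
  have hLlow := hG.pos X hX
  have hH0 := hG.hv_pos (x := X0) le_rfl
  have hπ := Real.pi_pos
  have hπ4 : Real.pi < 3.15 := Real.pi_lt_d2
  have hXk : (X : ℝ) ≤ (X : ℝ) ^ h.natDegree := by
    calc (X : ℝ) = (X : ℝ) ^ 1 := (pow_one _).symm
      _ ≤ (X : ℝ) ^ h.natDegree := pow_le_pow_right₀ hXr (by omega)
  have hH0L : 2 * hv h X0 / hv h X ≤ 4 * hv h X0 / X := by
    rw [div_le_div_iff₀ hL (by linarith)]
    have h1 : (X : ℝ) ≤ 2 * hv h X := by linarith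
    nlinarith
  have hN0 : (0 : ℝ) < N := lt_of_lt_of_le hL hN
  have hθL : |θ| * hv h X ≤ 1 / 8 := by
    calc |θ| * hv h X ≤ 1 / (8 * N) * N := mul_le_mul hθ hN hL.le (by positivity)
      _ = 1 / 8 := by field_simp
  have hθL0 : 0 ≤ |θ| * hv h X := mul_nonneg (abs_nonneg _) hL.le
  have hmaj := hG.major hX B Q u hu.per hu.bd 1 le_rfl 0 θ
  rw [hu.one] at hmaj
  simp only [Int.cast_zero, zero_div, zero_add, Nat.cast_one, mul_one, one_mul] at hmaj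
  have h1 := hG.V_low hX θ hθL
  have h2 := hG.V_zero_ge hX
  have h5 := (Complex.abs_re_le_norm _).trans hmaj
  rw [Complex.sub_re] at h5
  have h6 := (abs_le.1 h5).1
  have hQp : (1 : ℝ) ≤ (Q : ℝ) ^ (B + 2) := one_le_pow₀ hQr
  have h7 : 2 * (Q : ℝ) ^ (B + 2) * (rr h X * (6 + 4 * Real.pi * |θ| * hv h X)) ≤
      32 * K * (Q : ℝ) ^ (B + 2) / X := by
    have e1 : 4 * Real.pi * |θ| * hv h X = 4 * Real.pi * (|θ| * hv h X) := by ring
    rw [e1]
    have h8 : 4 * Real.pi * (|θ| * hv h X) ≤ 2 := by nlinarith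
    have h8' : 0 ≤ 4 * Real.pi * (|θ| * hv h X) := by positivity
    calc 2 * (Q : ℝ) ^ (B + 2) * (rr h X * (6 + 4 * Real.pi * (|θ| * hv h X)))
        ≤ 2 * (Q : ℝ) ^ (B + 2) * ((2 * K / X) * 8) := by
          apply mul_le_mul_of_nonneg_left _ (by positivity)
          apply mul_le_mul hrr (by linarith) (by linarith) (by positivity)
      _ = _ := by ring
  have h9 : 32 * K * (Q : ℝ) ^ (B + 2) / X + (2 * K / X + 2 * hv h X0 / X) ≤ 1 / 4 := by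
    rw [← add_div, ← add_div, div_le_div_iff₀ (by linarith) (by norm_num)]
    have h10 : (2 * (K : ℝ) + 2 * hv h X0) ≤ (2 * K + 2 * hv h X0) * (Q : ℝ) ^ (B + 2) := by
      nlinarith
    nlinarith
  have h11 : 1 / 2 * (1 - (2 * rr h X + 2 * hv h X0 / hv h X)) ≥
      1 / 2 - (2 * K / X + 2 * hv h X0 / X) := by
    have : 4 * hv h X0 / X = 2 * (2 * hv h X0 / X) := by ring
    linarith
  linarith

theorem t_an : T_an := by
  intro h hk hpos B
  obtain ⟨X0, K, hG⟩ := exists_gr h hk hpos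
  obtain ⟨C, hC1, hdich⟩ := dichotomy h hk hpos
  set k := h.natDegree with hkdef
  set l : ℕ := h.leadingCoeff.toNat with hℓ
  have hℓr : (l : ℝ) = (h.leadingCoeff : ℝ) := by
    have : ((l : ℕ) : ℤ) = h.leadingCoeff := Int.toNat_of_nonneg hpos.le
    exact_mod_cast congrArg (Int.cast : ℤ → ℝ) this
  have hℓ1 : 1 ≤ l := by omega
  have hK1 := hG.Kpos
  have hX01 := hG.X0pos
  set H0 : ℕ := hn h X0 with hH0
  have hH0r : (H0 : ℝ) = hv h X0 := hG.hn_eq le_rfl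
  set M0 : ℕ := X0 + (76 * l * K ^ 2 + 32 * K ^ 2 + 136 * K + 8 * H0) with hM0
  set E' : ℕ := (2 * C + 1) * (B + 3) * k with hE'
  set C1 : ℕ := K * M0 ^ k * (12 * C * K) ^ (2 * C * k) + E' + 512 with hC1def
  refine ⟨C1, by omega, ?_⟩
  intro Q hQ η hη u hu N hN
  -- parameters
  set Dn : ℕ := (12 * C * K * Q ^ (B + 3)) ^ C with hDn
  set X : ℕ := M0 * (Dn ^ 2 * Q ^ (B + 3)) with hXdef
  have hQr : (1 : ℝ) ≤ Q := by exact_mod_cast hQ
  have hKr : (1 : ℝ) ≤ K := by exact_mod_cast hK1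
  have hCr : (1 : ℝ) ≤ C := by exact_mod_cast hC1
  have hℓr1 : (1 : ℝ) ≤ l := by exact_mod_cast hℓ1
  have hQp : 1 ≤ Q ^ (B + 3) := Nat.one_le_pow _ _ (by omega)
  have hDn1 : 1 ≤ Dn := by
    rw [hDn]
    apply Nat.one_le_pow
    exact Nat.mul_pos (Nat.mul_pos (Nat.mul_pos (by norm_num) hC1) hK1) hQp
  have hXM : M0 ≤ X := by
    rw [hXdef]
    apply Nat.le_mul_of_pos_right
    positivity
  have hX : X0 ≤ X := by omega
  have hX1 : 1 ≤ X := by omega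
  have hDr : (1 : ℝ) ≤ Dn := by exact_mod_cast hDn1
  have hQpr : (1 : ℝ) ≤ (Q : ℝ) ^ (B + 3) := one_le_pow₀ hQr
  have hδ0 : (0 : ℝ) < 1 / (12 * K * (Q : ℝ) ^ (B + 3)) := by positivity
  have hδ1 : 1 / (12 * K * (Q : ℝ) ^ (B + 3)) ≤ 1 := by
    rw [div_le_one (by positivity), mul_assoc]
    have := one_le_mul_of_one_le_of_one_le hKr hQpr
    linarith only [this]
  have hCδ : ((C : ℝ) / (1 / (12 * K * (Q : ℝ) ^ (B + 3)))) ^ C = Dn := by
    rw [hDn]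
    push_cast
    congr 1
    field_simp
  have hXe : (X : ℝ) = (M0 : ℝ) * ((Dn : ℝ) ^ 2 * (Q : ℝ) ^ (B + 3)) := by
    rw [hXdef]; push_cast; ring
  have hM0r : 76 * (l : ℝ) * (K : ℝ) ^ 2 + 32 * (K : ℝ) ^ 2 + 136 * K + 8 * hv h X0 ≤ M0 := by
    rw [hM0, ← hH0r]
    push_cast
    have : (0 : ℝ) ≤ X0 := Nat.cast_nonneg _
    linarith
  have hXbig : (76 * (l : ℝ) * (K : ℝ) ^ 2 + 32 * (K : ℝ) ^ 2 + 136 * K + 8 * hv h X0) *
      ((Dn : ℝ) ^ 2 * (Q : ℝ) ^ (B + 3)) ≤ X := by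
    rw [hXe]
    exact mul_le_mul_of_nonneg_right hM0r (by positivity)
  have hXbig2 : (136 * K + 8 * hv h X0) * (Q : ℝ) ^ (B + 2) ≤ X := by
    refine le_trans ?_ hXbig
    have hH00 := (hG.hv_pos (x := X0) le_rfl).le
    apply mul_le_mul
    · have : 0 ≤ 76 * (l : ℝ) * (K : ℝ) ^ 2 + 32 * (K : ℝ) ^ 2 := by positivity
      linarith
    · calc (Q : ℝ) ^ (B + 2) ≤ (Q : ℝ) ^ (B + 3) := pow_le_pow_right₀ hQr (by omega)
        _ ≤ (Dn : ℝ) ^ 2 * (Q : ℝ) ^ (B + 3) := by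
          apply le_mul_of_one_le_left (by positivity)
          exact one_le_pow₀ hDr
    · positivity
    · positivity
  have hlow : ∀ θ : ℝ, -(4 * η + 1 / Q) ≤ (ff h u Q X0 X θ).re := by
    intro θ
    rcases hdich X hX1 Q θ _ hδ0 hδ1 with hmin | ⟨q, a, hq1, hqD, hcop, hβ⟩
    · have := hG.low_minor hk hX B Q hQ η u hu _ rfl θ hmin
      linarith
    · rw [hCδ] at hqD hβ
      rw [← hℓr] at hqD
      exact hG.low_major hk hX B Q hQ η hη u hu l Dn hℓr1 hDr hXbig q a hq1 hqD hcop θ hβ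
  -- the size of `N`
  have hNX : hv h X ≤ N := by
    have h1 := hG.up X hX1
    refine h1.trans ?_
    have h2 : K * X ^ k ≤ N := by
      have e1 : K * X ^ k = K * M0 ^ k * (12 * C * K) ^ (2 * C * k) * Q ^ E' := by
        rw [hXdef, hDn, hE']
        rw [mul_pow, mul_pow, ← pow_mul, ← pow_mul, ← pow_mul, mul_pow, ← pow_mul]
        have : (2 * C + 1) * (B + 3) * k = (B + 3) * (C * 2 * k) + (B + 3) * k := by ring
        rw [this, pow_add]
        have : C * 2 * k = 2 * C * k := by ring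
        rw [this]
        ring
      rw [e1]
      refine le_trans ?_ hN
      apply Nat.mul_le_mul
      · omega
      · exact Nat.pow_le_pow_right (by omega) (by omega)
    exact_mod_cast h2
  have hN1 : 1 ≤ N := by
    have h3 := hG.hv_pos hX
    have h4 : (0 : ℝ) < N := lt_of_lt_of_le h3 hNX
    exact_mod_cast h4
  have hfin := lp_bound h N hN1 (Finset.Ico X0 X)
    (fun x => kap h X x * ∑ n ∈ Finset.Icc 1 Q, u n (x : ℤ)) (4 * η + 1 / Q) ?_ ?_ ?_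
  · refine hfin.trans ?_
    have h5' : 512 ≤ C1 := Nat.le_add_left _ _
    have h5 : (512 : ℝ) ≤ C1 := by
      have := (Nat.cast_le (α := ℝ)).2 h5'
      simpa using this
    have h6 : (0 : ℝ) < 1 / Q := by positivity
    have h7 : (0 : ℝ) ≤ N := Nat.cast_nonneg N
    apply mul_le_mul_of_nonneg_right _ h7
    have h10 : 512 * (η + 1 / (Q : ℝ)) ≤ C1 * (η + 1 / (Q : ℝ)) :=
      mul_le_mul_of_nonneg_right h5 (by positivity)
    linarith only [h10, h6, hη]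
  · intro x hx
    rw [Finset.mem_Ico] at hx
    refine ⟨by omega, ?_⟩
    have h8 := hG.hv_pos hx.1
    unfold hv at h8
    intro h9
    rw [h9] at h8
    simp at h8
  · intro θ
    exact hlow θ
  · intro θ hθ
    exact hG.near_zero hk hX B Q hQ η u hu hXbig2 N hNX θ hθ

end Vale.Agent.P042.PS463
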