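import Vale.Agent.P042.PS463.Kernel
set_option autoImplicit false

namespace Vale.Agent.P042.PS463

open Polynomial Finset

variable {h : ℤ[X]} {X0 K : ℕ}

lemma Gr.V_re (hG : Gr h X0 K) {X : ℕ} (hX : X0 ≤ X) (β : ℝ) :
    -(2 * rr h X * (1 + 2 * Real.pi * |β| * hv h X) + 2 * hv h X0 / hv h X) ≤ (VV h X0 X β).re := by
  have h1 := hG.V_approx hX β
  set W : ℂ := 2 / (hv h X : ℂ) ^ 2 * ∑ j ∈ Finset.range (hn h X), ((hn h X : ℂ) - j) * e (j * β)
    with hW
  have h2 : 0 ≤ W.re := by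
    have e2 : (2 / (hv h X : ℂ) ^ 2 : ℂ) = ((2 / hv h X ^ 2 : ℝ) : ℂ) := by push_cast; ring
    rw [hW, e2, Complex.re_ofReal_mul]
    exact mul_nonneg (by positivity) (W_re_nonneg _ _)
  have h3 : |(VV h X0 X β - W).re| ≤ ‖VV h X0 X β - W‖ := Complex.abs_re_le_norm _
  rw [Complex.sub_re] at h3
  have h4 := (abs_le.1 h3).1
  linarith

lemma Gr.V_zero_ge (hG : Gr h X0 K) {X : ℕ} (hX : X0 ≤ X) :
    1 - (2 * rr h X + 2 * hv h X0 / hv h X) ≤ (VV h X0 X 0).re := by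
  have h1 := hG.V_approx hX 0
  have hL := hG.hv_pos hX
  rw [W_zero] at h1
  have e2 : (2 / (hv h X : ℂ) ^ 2 * ((hn h X : ℂ) * ((hn h X : ℂ) + 1) / 2) : ℂ) =
      ((1 + 1 / hv h X : ℝ) : ℂ) := by
    have hnX : ((hn h X : ℕ) : ℂ) = (hv h X : ℂ) := by
      have := hG.hn_eq hX
      exact_mod_cast congrArg (Complex.ofReal) this
    rw [hnX]
    have : (hv h X : ℂ) ≠ 0 := by exact_mod_cast hL.ne'
    push_cast
    field_simp
  rw [e2] at h1
  have h3 : |(VV h X0 X 0 - ((1 + 1 / hv h X : ℝ) : ℂ)).re| ≤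
      ‖VV h X0 X 0 - ((1 + 1 / hv h X : ℝ) : ℂ)‖ := Complex.abs_re_le_norm _
  rw [Complex.sub_re, Complex.ofReal_re] at h3
  have h4 := (abs_le.1 h3).1
  have h5 : 0 < 1 / hv h X := by positivity
  simp only [abs_zero, mul_zero, zero_mul, add_zero, mul_one] at h1
  linarith

lemma Gr.kap_sum_le (hG : Gr h X0 K) {X : ℕ} (hX : X0 ≤ X) :
    ∑ x ∈ Finset.Ico X0 X, kap h X x ≤ 2 := by
  have hL := hG.hv_pos hX
  have h0 := hG.hv_pos (x := X0) le_rfl
  calc ∑ x ∈ Finset.Ico X0 X, kap h X x ≤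
      ∑ x ∈ Finset.Ico X0 X, 2 / hv h X ^ 2 * hv h X * (hv h (x + 1) - hv h x) := by
        apply Finset.sum_le_sum
        intro x hx
        rw [Finset.mem_Ico] at hx
        have h1 := hG.step x hx.1
        have h2 := hG.hv_pos hx.1
        unfold kap
        rw [mul_assoc]
        apply mul_le_mul_of_nonneg_left _ (by positivity)
        rw [mul_comm]
        apply mul_le_mul_of_nonneg_right _ (by linarith)
        linarith
    _ = 2 / hv h X ^ 2 * hv h X * (hv h X - hv h X0) := by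
        rw [← Finset.mul_sum, Finset.sum_Ico_sub (hv h) hX]
    _ ≤ 2 / hv h X ^ 2 * hv h X * hv h X := by
        apply mul_le_mul_of_nonneg_left _ (by positivity)
        linarith
    _ = 2 := by field_simp

lemma Gr.V_norm (hG : Gr h X0 K) {X : ℕ} (hX : X0 ≤ X) (β : ℝ) : ‖VV h X0 X β‖ ≤ 2 := by
  unfold VV
  refine (norm_sum_le _ _).trans (le_trans ?_ (hG.kap_sum_le hX))
  apply Finset.sum_le_sum
  intro x hx
  rw [Finset.mem_Ico] at hx
  rw [norm_mul, norm_e, mul_one, Complex.norm_real, Real.norm_eq_abs,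
    abs_of_nonneg (hG.kap_nonneg hx.1 hx.2.le)]

lemma Gr.V_low (hG : Gr h X0 K) {X : ℕ} (hX : X0 ≤ X) (β : ℝ) (hβ : |β| * hv h X ≤ 1 / 8) :
    1 / 2 * (VV h X0 X 0).re ≤ (VV h X0 X β).re := by
  unfold VV
  rw [Complex.re_sum, Complex.re_sum, Finset.mul_sum]
  apply Finset.sum_le_sum
  intro x hx
  rw [Finset.mem_Ico] at hx
  have h1 := hG.kap_nonneg hx.1 hx.2.le
  have h2 := hG.mono hx.1 hx.2.le
  have h3 := hG.hv_pos hx.1
  rw [Complex.re_ofReal_mul, Complex.re_ofReal_mul, mul_zero, e_zero, Complex.one_re, mul_one,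
    mul_comm]
  apply mul_le_mul_of_nonneg_left _ h1
  apply re_e_ge
  rw [abs_mul, abs_of_pos h3, mul_comm]
  exact (mul_le_mul_of_nonneg_left h2 (abs_nonneg β)).trans hβ

/-- partial sums of a periodic function with mean zero -/
lemma per_sum (g : ℕ → ℂ) (m : ℕ) (hm : 1 ≤ m) (hper : ∀ x, g (x + m) = g x)
    (h0 : ∑ x ∈ Finset.range m, g x = 0) (U : ℝ) (hU : ∀ x, ‖g x‖ ≤ U) (M : ℕ) :
    ‖∑ x ∈ Finset.range M, g x‖ ≤ m * U := by
  have hU0 : 0 ≤ U := (norm_nonneg _).trans (hU 0)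
  have hper' : ∀ b x : ℕ, g (m * b + x) = g x := by
    intro b x
    induction b with
    | zero => simp
    | succ b ih =>
      rw [← ih, ← hper (m * b + x)]
      congr 1
      ring
  have hMd : M = m * (M / m) + M % m := (Nat.div_add_mod M m).symm
  rw [hMd, Finset.sum_range_add, sum_range_mul_blocks]
  simp_rw [hper', h0]
  rw [Finset.sum_const_zero, zero_add]
  refine (norm_sum_le _ _).trans ?_
  calc ∑ x ∈ Finset.range (M % m), ‖g x‖ ≤ ∑ x ∈ Finset.range (M % m), U :=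
        Finset.sum_le_sum fun x _ => hU x
    _ = ((M % m : ℕ) : ℝ) * U := by rw [Finset.sum_const, Finset.card_range, nsmul_eq_mul]
    _ ≤ m * U := by
        gcongr
        exact (Nat.mod_lt M (by omega)).le

/-- variation bound for the twisted weight -/
lemma Gr.tw_var (hG : Gr h X0 K) {X : ℕ} (hX : X0 ≤ X) (β : ℝ) :
    ‖(kap h X X0 : ℂ) * e (hv h X0 * β)‖ + ‖(kap h X X : ℂ) * e (hv h X * β)‖ +
      ∑ x ∈ Finset.Ico X0 X, ‖(kap h X (x + 1) : ℂ) * e (hv h (x + 1) * β) -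
        (kap h X x : ℂ) * e (hv h x * β)‖ ≤ rr h X * (6 + 4 * Real.pi * |β| * hv h X) := by
  have hL := hG.hv_pos hX
  have hπ := Real.pi_pos
  have h1 : ‖(kap h X X0 : ℂ) * e (hv h X0 * β)‖ ≤ 2 * rr h X := by
    rw [norm_mul, norm_e, mul_one, Complex.norm_real, Real.norm_eq_abs,
      abs_of_nonneg (hG.kap_nonneg le_rfl hX)]
    exact hG.kap_le le_rfl hX
  have h2 : ‖(kap h X X : ℂ) * e (hv h X * β)‖ = 0 := by
    unfold kap
    simp
  have h3 : ∑ x ∈ Finset.Ico X0 X, ‖(kap h X (x + 1) : ℂ) * e (hv h (x + 1) * β) -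
        (kap h X x : ℂ) * e (hv h x * β)‖ ≤
      ∑ x ∈ Finset.Ico X0 X, (|kap h X (x + 1) - kap h X x| +
        2 * rr h X * (2 * Real.pi * |β|) * (hv h (x + 1) - hv h x)) := by
    apply Finset.sum_le_sum
    intro x hx
    rw [Finset.mem_Ico] at hx
    have a1 := hG.step x hx.1
    have e1 : (kap h X (x + 1) : ℂ) * e (hv h (x + 1) * β) - (kap h X x : ℂ) * e (hv h x * β) =
        ((kap h X (x + 1) - kap h X x : ℝ) : ℂ) * e (hv h (x + 1) * β) +
        (kap h X x : ℂ) * (e (hv h x * β) * (e ((hv h (x + 1) - hv h x) * β) - 1)) := by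
      have : e (hv h (x + 1) * β) = e (hv h x * β) * e ((hv h (x + 1) - hv h x) * β) := by
        rw [← e_add]; congr 1; ring
      rw [this]
      push_cast
      ring
    rw [e1]
    refine (norm_add_le _ _).trans ?_
    rw [norm_mul, norm_mul, norm_mul, norm_e, norm_e, mul_one, one_mul, Complex.norm_real,
      Complex.norm_real, Real.norm_eq_abs, Real.norm_eq_abs,
      abs_of_nonneg (hG.kap_nonneg hx.1 hx.2.le)]
    have a2 := norm_e_sub_one_le ((hv h (x + 1) - hv h x) * β)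
    rw [abs_mul, abs_of_nonneg (by linarith : (0 : ℝ) ≤ hv h (x + 1) - hv h x)] at a2
    have a3 := hG.kap_le hx.1 hx.2.le
    have a4 := hG.rr_nonneg hX
    calc _ ≤ |kap h X (x + 1) - kap h X x| +
        2 * rr h X * (2 * Real.pi * ((hv h (x + 1) - hv h x) * |β|)) := by
          apply add_le_add le_rfl
          apply mul_le_mul a3 a2 (norm_nonneg _) (by positivity)
      _ = _ := by ring
  have h4 : ∑ x ∈ Finset.Ico X0 X, (|kap h X (x + 1) - kap h X x| +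
        2 * rr h X * (2 * Real.pi * |β|) * (hv h (x + 1) - hv h x)) ≤
      4 * rr h X + 2 * rr h X * (2 * Real.pi * |β|) * hv h X := by
    rw [Finset.sum_add_distrib, ← Finset.mul_sum, Finset.sum_Ico_sub (hv h) hX]
    apply add_le_add (hG.kap_var hX)
    have a4 := hG.rr_nonneg hX
    have a5 := hG.hv_pos (x := X0) le_rfl
    apply mul_le_mul_of_nonneg_left (by linarith) (by positivity)
  rw [h2]
  calc _ ≤ 2 * rr h X + 0 + (4 * rr h X + 2 * rr h X * (2 * Real.pi * |β|) * hv h X) :=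
        add_le_add (add_le_add h1 le_rfl) (h3.trans h4)
    _ = _ := by ring

/-- major arc approximation for one `u` -/
lemma Gr.major_one (hG : Gr h X0 K) {X : ℕ} (hX : X0 ≤ X) (u : ℤ → ℝ) (n q : ℕ) (hn : 1 ≤ n)
    (hq : 1 ≤ q) (a : ℤ) (β : ℝ) (U : ℝ) (hper : ∀ x : ℤ, u (x + n) = u x) (hU : ∀ x, |u x| ≤ U) :
    ‖∑ x ∈ Finset.Ico X0 X, (kap h X x : ℂ) * (u (x : ℤ) : ℂ) * e (hv h x * (a / q + β)) -
      mn h u n q a * VV h X0 X β‖ ≤
    (n * q : ℕ) * (2 * U) * (rr h X * (6 + 4 * Real.pi * |β| * hv h X)) := by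
  have hU0 : 0 ≤ U := (abs_nonneg _).trans (hU 0)
  have hnq : 1 ≤ n * q := Nat.one_le_iff_ne_zero.2 (Nat.mul_ne_zero (by omega) (by omega))
  set φ : ℕ → ℂ := fun x => (u (x : ℤ) : ℂ) * e ((a : ℝ) * ((h.eval (x : ℤ) : ℤ) : ℝ) / (q : ℝ))
    with hφ
  have hφn : ∀ x, ‖φ x‖ ≤ U := by
    intro x
    rw [hφ]
    simp only [norm_mul, norm_e, mul_one, Complex.norm_real, Real.norm_eq_abs]
    exact hU _
  have huper : ∀ (b : ℕ) (x : ℤ), u (x + n * b) = u x := by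
    intro b x
    induction b with
    | zero => simp
    | succ b ih =>
      rw [← ih, ← hper (x + n * b)]
      congr 1
      push_cast
      ring
  have hφper : ∀ x, φ (x + n * q) = φ x := by
    intro x
    rw [hφ]
    simp only
    have h1 : u ((x + n * q : ℕ) : ℤ) = u (x : ℤ) := by
      have := huper q (x : ℤ)
      rw [← this]
      push_cast
      rfl
    have h2 : e ((a : ℝ) * ((h.eval ((x + n * q : ℕ) : ℤ) : ℤ) : ℝ) / (q : ℝ)) =
        e ((a : ℝ) * ((h.eval (x : ℤ) : ℤ) : ℝ) / (q : ℝ)) := by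
      have := e_eval_periodic h a q hq (x : ℤ) (n : ℤ)
      rw [← this]
      have e5 : ((x + n * q : ℕ) : ℤ) = (q : ℤ) * (n : ℤ) + (x : ℤ) := by push_cast; ring
      rw [e5]
    rw [h1, h2]
  have hμ : mn h u n q a = (∑ x ∈ Finset.range (n * q), φ x) / ((n * q : ℕ) : ℂ) := rfl
  set μ := mn h u n q a with hμd
  have hnqc : ((n * q : ℕ) : ℂ) ≠ 0 := by
    exact_mod_cast (by omega : n * q ≠ 0)
  have hμn : ‖μ‖ ≤ U := by
    rw [hμ, norm_div, Complex.norm_natCast, div_le_iff₀ (by exact_mod_cast hnq)]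
    refine (norm_sum_le _ _).trans ?_
    calc ∑ x ∈ Finset.range (n * q), ‖φ x‖ ≤ ∑ x ∈ Finset.range (n * q), U :=
          Finset.sum_le_sum fun x _ => hφn x
      _ = U * ((n * q : ℕ) : ℝ) := by
          rw [Finset.sum_const, Finset.card_range, nsmul_eq_mul, mul_comm]
  have hsplit : ∑ x ∈ Finset.Ico X0 X, (kap h X x : ℂ) * (u (x : ℤ) : ℂ) * e (hv h x * (a / q + β)) -
      μ * VV h X0 X β =
      ∑ x ∈ Finset.Ico X0 X, ((kap h X x : ℂ) * e (hv h x * β)) * (φ x - μ) := by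
    unfold VV
    rw [Finset.mul_sum, ← Finset.sum_sub_distrib]
    apply Finset.sum_congr rfl
    intro x _
    have : e (hv h x * (a / q + β)) =
        e (hv h x * β) * e ((a : ℝ) * ((h.eval (x : ℤ) : ℤ) : ℝ) / (q : ℝ)) := by
      rw [← e_add]
      congr 1
      unfold hv
      ring
    rw [this, hφ]
    ring
  rw [hsplit]
  refine (abel (fun x => (kap h X x : ℂ) * e (hv h x * β)) (fun x => φ x - μ) X0 X hX
    ((n * q : ℕ) * (2 * U)) ?_).trans ?_
  · intro M _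
    apply per_sum _ (n * q) hnq
    · intro x
      rw [hφper]
    · rw [Finset.sum_sub_distrib, Finset.sum_const, Finset.card_range, nsmul_eq_mul, hμ]
      rw [mul_div_cancel₀ _ hnqc, sub_self]
    · intro x
      refine (norm_sub_le _ _).trans ?_
      linarith [hφn x]
  · apply mul_le_mul_of_nonneg_left _ (by positivity)
    exact hG.tw_var hX β

/-- the LP function -/
noncomputable def ff (h : ℤ[X]) (u : ℕ → ℤ → ℝ) (Q X0 X : ℕ) (θ : ℝ) : ℂ :=
  ∑ x ∈ Finset.Ico X0 X, ((kap h X x * ∑ n ∈ Finset.Icc 1 Q, u n (x : ℤ) : ℝ) : ℂ) *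
    e (((h.eval (x : ℤ) : ℤ) : ℝ) * θ)

lemma ff_eq (h : ℤ[X]) (u : ℕ → ℤ → ℝ) (Q X0 X : ℕ) (θ : ℝ) :
    ff h u Q X0 X θ = ∑ n ∈ Finset.Icc 1 Q, ∑ x ∈ Finset.Ico X0 X,
      (kap h X x : ℂ) * (u n (x : ℤ) : ℂ) * e (hv h x * θ) := by
  unfold ff
  rw [Finset.sum_comm]
  apply Finset.sum_congr rfl
  intro x _
  unfold hv
  push_cast
  rw [Finset.mul_sum, Finset.sum_mul]

lemma Gr.major (hG : Gr h X0 K) {X : ℕ} (hX : X0 ≤ X) (B Q : ℕ) (u : ℕ → ℤ → ℝ)
    (hper : ∀ n, 1 ≤ n → n ≤ Q → ∀ x : ℤ, u n (x + n) = u n x)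
    (hbd : ∀ n, 1 ≤ n → n ≤ Q → ∀ x : ℤ, |u n x| ≤ (n : ℝ) ^ B)
    (q : ℕ) (hq : 1 ≤ q) (a : ℤ) (β : ℝ) :
    ‖ff h u Q X0 X (a / q + β) - (∑ n ∈ Finset.Icc 1 Q, mn h (u n) n q a) * VV h X0 X β‖ ≤
      2 * q * (Q : ℝ) ^ (B + 2) * (rr h X * (6 + 4 * Real.pi * |β| * hv h X)) := by
  have hrr := hG.rr_nonneg hX
  have hL := hG.hv_pos hX
  have hπ := Real.pi_pos
  rw [ff_eq, Finset.sum_mul, ← Finset.sum_sub_distrib]
  refine (norm_sum_le _ _).trans ?_
  calc _ ≤ ∑ n ∈ Finset.Icc 1 Q,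
        2 * q * (Q : ℝ) ^ (B + 1) * (rr h X * (6 + 4 * Real.pi * |β| * hv h X)) := by
        apply Finset.sum_le_sum
        intro n hn
        rw [Finset.mem_Icc] at hn
        have h1 := hG.major_one hX (u n) n q hn.1 hq a β ((n : ℝ) ^ B) (hper n hn.1 hn.2)
          (hbd n hn.1 hn.2)
        refine h1.trans ?_
        apply mul_le_mul_of_nonneg_right _ (by positivity)
        have hnQ : (n : ℝ) ≤ Q := by exact_mod_cast hn.2
        have hn0 : (0 : ℝ) ≤ n := Nat.cast_nonneg n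
        push_cast
        calc (n : ℝ) * q * (2 * (n : ℝ) ^ B) ≤ (Q : ℝ) * q * (2 * (Q : ℝ) ^ B) := by gcongr
          _ = 2 * q * (Q : ℝ) ^ (B + 1) := by ring
    _ = _ := by
        rw [Finset.sum_const, Nat.card_Icc, nsmul_eq_mul, Nat.add_sub_cancel]
        ring

end Vale.Agent.P042.PS463
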