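import Vale.Agent.P042.PS463.Major
set_option autoImplicit false

namespace Vale.Agent.P042.PS463

open Polynomial Finset

variable {h : ℤ[X]} {X0 K : ℕ}

lemma orth (n : ℕ) (hn : 1 ≤ n) (m : ℤ) :
    ∑ c ∈ Finset.range n, e (c * ((m : ℝ) / n)) = if (n : ℤ) ∣ m then (n : ℂ) else 0 := by
  have hn0 : (n : ℝ) ≠ 0 := by exact_mod_cast (by omega : n ≠ 0)
  simp_rw [e_nat_mul]
  split_ifs with hd
  · obtain ⟨t, ht⟩ := hd
    have : e ((m : ℝ) / n) = 1 := by
      have h1 : (m : ℝ) / n = (t : ℝ) := by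
        rw [ht]; push_cast; field_simp
      rw [h1, e_int]
    rw [this]
    simp
  · have h1 : e ((m : ℝ) / n) ≠ 1 := by
      intro h2
      rw [e_eq_one_iff] at h2
      obtain ⟨t, ht⟩ := h2
      apply hd
      refine ⟨t, ?_⟩
      rw [div_eq_iff hn0] at ht
      have h3 : (m : ℝ) = ((n * t : ℤ) : ℝ) := by rw [ht]; push_cast; ring
      exact_mod_cast h3
    rw [geom_sum_eq h1, ← e_nat_mul]
    have h2 : (n : ℝ) * ((m : ℝ) / n) = m := by field_simp
    rw [h2, e_int]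
    simp

/-- Fourier coefficients -/
noncomputable def uh (u : ℤ → ℝ) (n c : ℕ) : ℂ :=
  (∑ y ∈ Finset.range n, (u (y : ℤ) : ℂ) * e (-(c * ((y : ℝ) / n)))) / n

lemma uh_expand (u : ℤ → ℝ) (n : ℕ) (hn : 1 ≤ n) (hper : ∀ x : ℤ, u (x + n) = u x) (x : ℕ) :
    (u (x : ℤ) : ℂ) = ∑ c ∈ Finset.range n, uh u n c * e (c * ((x : ℝ) / n)) := by
  have hn0 : (n : ℂ) ≠ 0 := by exact_mod_cast (by omega : n ≠ 0)
  have h1 : ∀ c ∈ Finset.range n, uh u n c * e (c * ((x : ℝ) / n)) =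
      (∑ y ∈ Finset.range n, (u (y : ℤ) : ℂ) * e (c * ((((x : ℤ) - (y : ℤ) : ℤ) : ℝ) / n))) / n := by
    intro c _
    unfold uh
    rw [div_mul_eq_mul_div, Finset.sum_mul]
    congr 1
    apply Finset.sum_congr rfl
    intro y _
    rw [mul_assoc, ← e_add]
    congr 2
    push_cast
    ring
  rw [Finset.sum_congr rfl h1, ← Finset.sum_div, Finset.sum_comm]
  simp_rw [← Finset.mul_sum]
  simp_rw [orth n hn]
  have h2 : ∀ y ∈ Finset.range n, (u (y : ℤ) : ℂ) * (if (n : ℤ) ∣ ((x : ℤ) - (y : ℤ)) then (n : ℂ) else 0) =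
      if y = x % n then (u (x : ℤ) : ℂ) * n else 0 := by
    intro y hy
    rw [Finset.mem_range] at hy
    have hper' : ∀ (b : ℕ) (x : ℤ), u (x + n * b) = u x := by
      intro b x
      induction b with
      | zero => simp
      | succ b ih =>
        rw [← ih, ← hper (x + n * b)]
        congr 1
        push_cast
        ring
    by_cases hyx : y = x % n
    · rw [if_pos hyx, if_pos]
      · congr 2
        have h3 : (x : ℤ) = (y : ℤ) + n * ((x / n : ℕ) : ℤ) := by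
          have := Nat.div_add_mod x n
          rw [← hyx] at this
          have h4 : ((n * (x / n) + y : ℕ) : ℤ) = (x : ℤ) := by exact_mod_cast this
          rw [← h4]
          push_cast
          ring
        conv_rhs => rw [h3]
        rw [hper']
      · refine ⟨((x / n : ℕ) : ℤ), ?_⟩
        have := Nat.div_add_mod x n
        rw [← hyx] at this
        have h4 : ((n * (x / n) + y : ℕ) : ℤ) = (x : ℤ) := by exact_mod_cast this
        rw [← h4]
        push_cast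
        ring
    · rw [if_neg hyx, if_neg, mul_zero]
      intro hd
      apply hyx
      have h5 : (x : ℤ) ≡ (y : ℤ) [ZMOD n] := (Int.modEq_iff_dvd.2 (by
        have := hd
        obtain ⟨t, ht⟩ := this
        exact ⟨-t, by linarith⟩))
      have h6 : x ≡ y [MOD n] := (Int.natCast_modEq_iff).1 h5
      have h7 : x % n = y % n := h6
      rw [h7, Nat.mod_eq_of_lt hy]
  rw [Finset.sum_congr rfl h2, Finset.sum_ite_eq']
  have h8 : x % n ∈ Finset.range n := Finset.mem_range.2 (Nat.mod_lt _ (by omega))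
  rw [if_pos h8]
  field_simp

lemma uh_norm (u : ℤ → ℝ) (n : ℕ) (hn : 1 ≤ n) (U : ℝ) (hU : ∀ x, |u x| ≤ U) (c : ℕ) :
    ‖uh u n c‖ ≤ U := by
  unfold uh
  rw [norm_div, Complex.norm_natCast, div_le_iff₀ (by exact_mod_cast hn)]
  refine (norm_sum_le _ _).trans ?_
  calc _ ≤ ∑ y ∈ Finset.range n, U := by
        apply Finset.sum_le_sum
        intro y _
        rw [norm_mul, norm_e, mul_one, Complex.norm_real, Real.norm_eq_abs]
        exact hU _
    _ = U * n := by rw [Finset.sum_const, Finset.card_range, nsmul_eq_mul, mul_comm]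

lemma Gr.minor_one (hG : Gr h X0 K) {X : ℕ} (hX : X0 ≤ X) (u : ℤ → ℝ) (n : ℕ) (hn : 1 ≤ n)
    (θ U T : ℝ) (hper : ∀ x : ℤ, u (x + n) = u x) (hU : ∀ x, |u x| ≤ U)
    (hT : ∀ c < n, ∀ M ≤ X, ‖∑ x ∈ Finset.range M, e (θ * hv h x + (c : ℝ) / n * x)‖ ≤ T) :
    ‖∑ x ∈ Finset.Ico X0 X, (kap h X x : ℂ) * (u (x : ℤ) : ℂ) * e (hv h x * θ)‖ ≤
      n * (U * (T * (6 * rr h X))) := by
  have hU0 : 0 ≤ U := (abs_nonneg _).trans (hU 0)
  have hT0 : 0 ≤ T := (norm_nonneg _).trans (hT 0 (by omega) 0 (by omega))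
  have hrr := hG.rr_nonneg hX
  have h1 : ∑ x ∈ Finset.Ico X0 X, (kap h X x : ℂ) * (u (x : ℤ) : ℂ) * e (hv h x * θ) =
      ∑ c ∈ Finset.range n, uh u n c * ∑ x ∈ Finset.Ico X0 X,
        (kap h X x : ℂ) * e (θ * hv h x + (c : ℝ) / n * x) := by
    simp_rw [Finset.mul_sum]
    rw [Finset.sum_comm]
    apply Finset.sum_congr rfl
    intro x _
    rw [uh_expand u n hn hper x, Finset.mul_sum, Finset.sum_mul]
    apply Finset.sum_congr rfl
    intro c _
    have : e (θ * hv h x + (c : ℝ) / n * x) = e (hv h x * θ) * e (c * ((x : ℝ) / n)) := by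
      rw [← e_add]
      congr 1
      ring
    rw [this]
    ring
  rw [h1]
  refine (norm_sum_le _ _).trans ?_
  have h2 : ∀ c ∈ Finset.range n, ‖uh u n c * ∑ x ∈ Finset.Ico X0 X,
        (kap h X x : ℂ) * e (θ * hv h x + (c : ℝ) / n * x)‖ ≤ U * (T * (6 * rr h X)) := by
    intro c hc
    rw [Finset.mem_range] at hc
    rw [norm_mul]
    apply mul_le_mul (uh_norm u n hn U hU c) _ (norm_nonneg _) hU0
    refine (abel (fun x => (kap h X x : ℂ)) (fun x : ℕ => e (θ * hv h x + (c : ℝ) / n * x)) X0 X hX T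
      (hT c hc)).trans ?_
    apply mul_le_mul_of_nonneg_left _ hT0
    have h3 := hG.tw_var hX 0
    simp only [mul_zero, e_zero, mul_one, abs_zero, zero_mul, add_zero] at h3
    linarith
  refine (Finset.sum_le_sum h2).trans ?_
  rw [Finset.sum_const, Finset.card_range, nsmul_eq_mul]

lemma Gr.minor (hG : Gr h X0 K) {X : ℕ} (hX : X0 ≤ X) (B Q : ℕ) (u : ℕ → ℤ → ℝ)
    (hper : ∀ n, 1 ≤ n → n ≤ Q → ∀ x : ℤ, u n (x + n) = u n x)
    (hbd : ∀ n, 1 ≤ n → n ≤ Q → ∀ x : ℤ, |u n x| ≤ (n : ℝ) ^ B) (θ T : ℝ) (hT0 : 0 ≤ T)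
    (hT : ∀ n, 1 ≤ n → n ≤ Q → ∀ c < n, ∀ M ≤ X,
      ‖∑ x ∈ Finset.range M, e (θ * hv h x + (c : ℝ) / n * x)‖ ≤ T) :
    ‖ff h u Q X0 X θ‖ ≤ (Q : ℝ) ^ (B + 2) * (T * (6 * rr h X)) := by
  have hrr := hG.rr_nonneg hX
  rw [ff_eq]
  refine (norm_sum_le _ _).trans ?_
  calc _ ≤ ∑ n ∈ Finset.Icc 1 Q, (Q : ℝ) ^ (B + 1) * (T * (6 * rr h X)) := by
        apply Finset.sum_le_sum
        intro n hn
        rw [Finset.mem_Icc] at hn
        have h1 := hG.minor_one hX (u n) n hn.1 θ ((n : ℝ) ^ B) T (hper n hn.1 hn.2)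
          (hbd n hn.1 hn.2) (hT n hn.1 hn.2)
        refine h1.trans ?_
        rw [← mul_assoc]
        apply mul_le_mul_of_nonneg_right _ (by positivity)
        have hnQ : (n : ℝ) ≤ Q := by exact_mod_cast hn.2
        have hn0 : (0 : ℝ) ≤ n := Nat.cast_nonneg n
        calc (n : ℝ) * (n : ℝ) ^ B ≤ (Q : ℝ) * (Q : ℝ) ^ B := by gcongr
          _ = (Q : ℝ) ^ (B + 1) := by ring
    _ = _ := by
        rw [Finset.sum_const, Nat.card_Icc, nsmul_eq_mul, Nat.add_sub_cancel]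
        ring

/-- Dirichlet/Weyl dichotomy -/
theorem dichotomy (h : ℤ[X]) (hk : 2 ≤ h.natDegree) (hpos : 0 < h.leadingCoeff) :
    ∃ C : ℕ, 1 ≤ C ∧ ∀ (X : ℕ), 1 ≤ X → ∀ (Q : ℕ) (θ δ : ℝ), 0 < δ → δ ≤ 1 →
      (∀ n, 1 ≤ n → n ≤ Q → ∀ c < n, ∀ M ≤ X,
        ‖∑ x ∈ Finset.range M, e (θ * hv h x + (c : ℝ) / n * x)‖ ≤ δ * X) ∨
      ∃ (q : ℕ) (a : ℤ), 1 ≤ q ∧ (q : ℝ) ≤ h.leadingCoeff * (C / δ) ^ C ∧ IsCoprime a (q : ℤ) ∧
        |θ - a / q| ≤ (C / δ) ^ C / (X : ℝ) ^ h.natDegree := by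
  obtain ⟨C, hC1, hC⟩ := weyl_inverse' h.natDegree
  refine ⟨C, hC1, fun X hX Q θ δ hδ hδ1 => ?_⟩
  by_cases hmin : ∀ n, 1 ≤ n → n ≤ Q → ∀ c < n, ∀ M ≤ X,
        ‖∑ x ∈ Finset.range M, e (θ * hv h x + (c : ℝ) / n * x)‖ ≤ δ * X
  · exact Or.inl hmin
  · right
    push Not at hmin
    obtain ⟨n, hn1, hnQ, c, hc, M, hM, hbig⟩ := hmin
    set g : ℝ[X] := h.map (Int.castRingHom ℝ) with hg
    set p : ℝ[X] := Polynomial.C θ * g + Polynomial.C ((c : ℝ) / n) * Polynomial.X with hp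
    have hpd : p.natDegree ≤ h.natDegree := by
      rw [hp]
      apply (natDegree_add_le _ _).trans
      apply max_le
      · exact (natDegree_C_mul_le _ _).trans natDegree_map_le
      · exact (natDegree_C_mul_le _ _).trans (natDegree_X_le.trans (by omega))
    have hpe : ∀ x : ℕ, p.eval (x : ℝ) = θ * hv h x + (c : ℝ) / n * x := by
      intro x
      rw [hp, hv_eq, ← hg]
      simp
    obtain ⟨s, hs1, hsC, hsi⟩ := hC p hpd X M hM hX δ hδ hδ1 (by
      have h1 : ∑ x ∈ Finset.range M, ee (p.eval (x : ℝ)) =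
          ∑ x ∈ Finset.range M, e (θ * hv h x + (c : ℝ) / n * x) := by
        apply Finset.sum_congr rfl
        intro x _
        rw [hpe]
        rfl
      rw [h1]
      exact hbig.le)
    obtain ⟨a, ha⟩ := hsi h.natDegree (by omega) le_rfl
    have hpc : p.coeff h.natDegree = θ * h.leadingCoeff := by
      rw [hp, coeff_add, coeff_C_mul, coeff_C_mul, coeff_X, if_neg (by omega), mul_zero, add_zero,
        hg, coeff_map]
      rfl
    rw [hpc] at ha
    set ℓ : ℕ := h.leadingCoeff.toNat with hℓ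
    have hℓr : (ℓ : ℝ) = (h.leadingCoeff : ℝ) := by
      have : ((ℓ : ℕ) : ℤ) = h.leadingCoeff := Int.toNat_of_nonneg hpos.le
      exact_mod_cast congrArg (Int.cast : ℤ → ℝ) this
    have hℓ1 : 1 ≤ ℓ := by omega
    have hℓr1 : (1 : ℝ) ≤ ℓ := by exact_mod_cast hℓ1
    have hs1r : (1 : ℝ) ≤ s := by exact_mod_cast hs1
    obtain ⟨q, b, hq1, hqs, hcop, hfrac⟩ := exists_reduced (s * ℓ) a
      (Nat.one_le_iff_ne_zero.2 (Nat.mul_ne_zero (by omega) (by omega)))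
    refine ⟨q, b, hq1, ?_, hcop, ?_⟩
    · calc (q : ℝ) ≤ ((s * ℓ : ℕ) : ℝ) := by exact_mod_cast hqs
        _ = ℓ * s := by push_cast; ring
        _ ≤ ℓ * (C / δ) ^ C := by gcongr
        _ = _ := by rw [hℓr]
    · rw [← hfrac]
      have hsl : (0 : ℝ) < (s : ℝ) * ℓ := by positivity
      have h2 : θ - (a : ℝ) / ((s * ℓ : ℕ) : ℝ) = (s * (θ * h.leadingCoeff) - a) / (s * ℓ) := by
        rw [← hℓr]
        push_cast
        field_simp
      rw [h2, abs_div, abs_of_pos hsl]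
      refine (div_le_self (abs_nonneg _) ?_).trans ha
      nlinarith

end Vale.Agent.P042.PS463
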