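import Vale.Agent.P042.Bdl.B1
set_option autoImplicit false

namespace Vale.Agent.P042.PS463

open Polynomial

/-- mean over `x mod nq` of `u(x) e(a h(x) / q)` -/
noncomputable def mn (h : ℤ[X]) (u : ℤ → ℝ) (n q : ℕ) (a : ℤ) : ℂ :=
  (∑ x ∈ Finset.range (n * q), (u (x : ℤ) : ℂ) *
    e ((a : ℝ) * ((h.eval (x : ℤ) : ℤ) : ℝ) / (q : ℝ))) / ((n * q : ℕ) : ℂ)

/-- an admissible family of periodic real weights with parameters `B, Q, η` -/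
structure Adm (h : ℤ[X]) (B Q : ℕ) (η : ℝ) (u : ℕ → ℤ → ℝ) : Prop where
  per : ∀ n, 1 ≤ n → n ≤ Q → ∀ x : ℤ, u n (x + n) = u n x
  bd : ∀ n, 1 ≤ n → n ≤ Q → ∀ x : ℤ, |u n x| ≤ (n : ℝ) ^ B
  one : ∑ n ∈ Finset.Icc 1 Q, mn h (u n) n 1 0 = 1
  re : ∀ q : ℕ, 1 ≤ q → ∀ a : ℤ, IsCoprime a (q : ℤ) →
    |(∑ n ∈ Finset.Icc 1 Q, mn h (u n) n q a).im| ≤ η
  ge : ∀ q : ℕ, 1 ≤ q → ∀ a : ℤ, IsCoprime a (q : ℤ) →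
    -η ≤ (∑ n ∈ Finset.Icc 1 Q, mn h (u n) n q a).re

/-- L1 -/
def T_an : Prop := ∀ (h : ℤ[X]), 2 ≤ h.natDegree → 0 < h.leadingCoeff → ∀ B : ℕ,
    ∃ C1 : ℕ, 1 ≤ C1 ∧ ∀ (Q : ℕ), 1 ≤ Q → ∀ (η : ℝ), 0 ≤ η → ∀ (u : ℕ → ℤ → ℝ),
      Adm h B Q η u →
      ∀ N : ℕ, C1 * Q ^ C1 ≤ N → (rMax h N : ℝ) ≤ C1 * (η + 1 / Q) * N

/-- final gluing -/
def Glue : Prop := ∀ (h : ℤ[X]), 2 ≤ h.natDegree → 0 < h.leadingCoeff → ∀ (B : ℕ) (C0 c0 : ℝ),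
    0 < c0 → (∀ Q : ℕ, 1 ≤ Q → ∃ u : ℕ → ℤ → ℝ, Adm h B Q (C0 * (Q : ℝ) ^ (-c0)) u) →
    ∃ c C : ℝ, 0 < c ∧ ∀ N : ℕ, 1 ≤ N → (rMax h N : ℝ) ≤ C * (N : ℝ) ^ (1 - c)

end Vale.Agent.P042.PS463
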